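import Mathlib

open MeasureTheory ProbabilityTheory Filter
open scoped ENNReal

namespace Vale.Agent.P147

/-- Index set of the `2d` coordinate unit steps of `ℤ^d`:
`(i, true)` stands for `e_i` and `(i, false)` for `-e_i`. -/
abbrev Step (d : ℕ) : Type := Fin d × Bool

/-- The unit step as a vector of `ℤ^d`. -/
def stepVec {d : ℕ} (e : Step d) : Fin d → ℤ :=
  Pi.single e.1 (if e.2 then 1 else -1)

/-- A row: a probability vector on the unit steps. -/
abbrev Row (d : ℕ) : Type := stdSimplex ℝ (Step d)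

/-- An environment: one row at every site of `ℤ^d`. -/
abbrev Env (d : ℕ) : Type := (Fin d → ℤ) → Row d

/-- The transition kernel of the walk in the environment `ω`:
from `y` it jumps to `y + e` with probability `ω(y, e)`. -/
noncomputable def stepKernel {d : ℕ} (ω : Env d) : Kernel (Fin d → ℤ) (Fin d → ℤ) :=
  Kernel.ofFunOfCountable fun y =>
    ∑ e : Step d, ENNReal.ofReal ((ω y).1 e) • Measure.dirac (y + stepVec e)

lemma stepKernel_apply {d : ℕ} (ω : Env d) (y : Fin d → ℤ) :
    stepKernel ω y =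
      ∑ e : Step d, ENNReal.ofReal ((ω y).1 e) • Measure.dirac (y + stepVec e) := rfl

instance {d : ℕ} (ω : Env d) : IsMarkovKernel (stepKernel ω) := by
  refine ⟨fun y => ⟨?_⟩⟩
  rw [stepKernel_apply]
  simp only [Measure.coe_finsetSum, Finset.sum_apply, Measure.smul_apply, measure_univ,
    smul_eq_mul, mul_one]
  rw [← ENNReal.ofReal_sum_of_nonneg (fun e _ => (ω y).2.1 e), (ω y).2.2, ENNReal.ofReal_one]

/-- The quenched law `P_{x, ω}` on path space: the law of the Markov chain with `X_0 = x` and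
transition kernel `stepKernel ω`. -/
noncomputable def quenched {d : ℕ} (ω : Env d) (x : Fin d → ℤ) : Measure (ℕ → Fin d → ℤ) :=
  Kernel.trajMeasure (X := fun _ => Fin d → ℤ) (Measure.dirac x) fun n =>
    (stepKernel ω).comap (fun h : (Finset.Iic n → Fin d → ℤ) => h ⟨n, Finset.mem_Iic.2 le_rfl⟩)
      (measurable_pi_apply _)

/-- The annealed probability `P_x(A) = ∫ P_{x, ω}(A) ℙ(dω)` for the iid environment law
`ℙ = μ^{⊗ ℤ^d}`. -/
noncomputable def annealed {d : ℕ} (μ : Measure (Row d)) [IsProbabilityMeasure μ]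
    (x : Fin d → ℤ) (A : Set (ℕ → Fin d → ℤ)) : ℝ≥0∞ :=
  ∫⁻ ω, quenched ω x A ∂(Measure.infinitePi fun _ : Fin d → ℤ => μ)

/-- The event `A_ℓ = {X_n · ℓ → +∞}` of escape in direction `ℓ`. -/
def escape {d : ℕ} (ℓ : Fin d → ℝ) : Set (ℕ → Fin d → ℤ) :=
  {X | Tendsto (fun n => ∑ i, (X n i : ℝ) * ℓ i) atTop atTop}

/-- `v` is an integer multiple of `w`, i.e. `v ∈ ℤ w`. -/
def Par {d : ℕ} (w v : Fin d → ℤ) : Prop := ∃ k : ℤ, v = k • w

open Classical in
/-- The randomness of the row law `μ` is one-dimensional, along `w`: under `μ`, given that the step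
is not parallel to `w`, the class of the step modulo `ℤ w` has a deterministic law.
In formulas: there are constants `q e` such that, for `μ`-almost every row `p` and every unit step
`e ∉ ℤ w`, the `p`-mass of the unit steps congruent to `e` modulo `ℤ w` equals `q e` times the
`p`-mass of the unit steps outside `ℤ w`. -/
def RandomOnlyAlong {d : ℕ} (μ : Measure (Row d)) (w : Fin d → ℤ) : Prop :=
  ∃ q : Step d → ℝ, ∀ᵐ p ∂μ, ∀ e : Step d, ¬ Par w (stepVec e) →
    ∑ f : Step d with Par w (stepVec f - stepVec e), p.1 f =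
      (∑ f : Step d with ¬ Par w (stepVec f), p.1 f) * q e

end Vale.Agent.P147
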