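import Mathlib
import Vale.Agent.Lib.P147.Defs

open MeasureTheory ProbabilityTheory Filter
open scoped ENNReal

namespace Vale.Agent.P147

section General

variable {S : Type*} [Countable S] [MeasurableSpace S] [MeasurableSingletonClass S]

/-- The law of the Markov chain with kernel `K` started at `x`. -/
noncomputable def chain (K : Kernel S S) [IsMarkovKernel K] (x : S) : Measure (ℕ → S) :=
  Kernel.trajMeasure (X := fun _ => S) (Measure.dirac x) fun n =>
    K.comap (fun h : (Finset.Iic n → S) => h ⟨n, Finset.mem_Iic.2 le_rfl⟩)
      (measurable_pi_apply _)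

instance (K : Kernel S S) [IsMarkovKernel K] (x : S) : IsProbabilityMeasure (chain K x) := by
  unfold chain; infer_instance

omit [Countable S] [MeasurableSingletonClass S] in
lemma map_eval_zero (K : Kernel S S) [IsMarkovKernel K] (x : S) :
    (chain K x).map (fun X => X 0) = Measure.dirac x := by
  have h0 : (chain K x).map (Preorder.frestrictLe (π := fun _ => S) 0) =
      (Measure.dirac x).map (MeasurableEquiv.piUnique (fun _ : Finset.Iic 0 => S)).symm := by
    unfold chain Kernel.trajMeasure
    rw [Measure.map_comp _ _ (by fun_prop), Kernel.traj_map_frestrictLe, Kernel.partialTraj_self,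
      Measure.id_comp]
  have h1 : (fun X : ℕ → S => X 0) =
      (fun h : (Finset.Iic 0 → S) => h ⟨0, Finset.mem_Iic.2 le_rfl⟩) ∘
        (Preorder.frestrictLe (π := fun _ => S) 0) := rfl
  rw [h1, ← Measure.map_map (by fun_prop) (by fun_prop), h0,
    Measure.map_map (by fun_prop) (by fun_prop)]
  have h2 : ((fun h : (Finset.Iic 0 → S) => h ⟨0, Finset.mem_Iic.2 le_rfl⟩) ∘
    (MeasurableEquiv.piUnique (fun _ : Finset.Iic 0 => S)).symm) = id := by
    funext y
    rfl
  rw [h2, Measure.map_id]

omit [MeasurableSpace S] [MeasurableSingletonClass S] [Countable S] in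
lemma frestrictLe_preimage (n : ℕ) (p : ℕ → S) :
    (Preorder.frestrictLe (π := fun _ => S) n) ⁻¹' {Preorder.frestrictLe (π := fun _ => S) n p} =
      {X : ℕ → S | ∀ i ≤ n, X i = p i} := by
  ext X
  constructor
  · intro h i hi
    have := congrFun h ⟨i, Finset.mem_Iic.2 hi⟩
    simpa using this
  · intro h
    funext ⟨i, hi⟩
    simpa using h i (Finset.mem_Iic.1 hi)

omit [Countable S] in
lemma measurableSet_cyl (n : ℕ) (p : ℕ → S) :
    MeasurableSet {X : ℕ → S | ∀ i ≤ n, X i = p i} := by
  rw [← frestrictLe_preimage]
  exact (Preorder.measurable_frestrictLe n) (measurableSet_singleton _)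

/-- A finite measure on path space is determined by its values on cylinders. -/
lemma path_ext {ν ν' : Measure (ℕ → S)} [IsFiniteMeasure ν] [IsFiniteMeasure ν']
    (h : ∀ (n : ℕ) (p : ℕ → S),
      ν {X | ∀ i ≤ n, X i = p i} = ν' {X | ∀ i ≤ n, X i = p i}) : ν = ν' := by
  by_cases hS : Nonempty S
  swap
  · have : IsEmpty (ℕ → S) := ⟨fun f => hS ⟨f 0⟩⟩
    ext s hs
    simp [Set.eq_empty_of_isEmpty s]
  obtain ⟨s0⟩ := hS
  have key : ∀ n, ν.map (Preorder.frestrictLe (π := fun _ => S) n)
      = ν'.map (Preorder.frestrictLe (π := fun _ => S) n) := by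
    intro n
    refine Measure.ext_of_singleton fun a => ?_
    let p : ℕ → S := fun i => if hi : i ≤ n then a ⟨i, Finset.mem_Iic.2 hi⟩ else s0
    have hp : Preorder.frestrictLe (π := fun _ => S) n p = a := by
      funext ⟨i, hi⟩
      simp [p, Finset.mem_Iic.1 hi]
    rw [Measure.map_apply (Preorder.measurable_frestrictLe n) (measurableSet_singleton _),
      Measure.map_apply (Preorder.measurable_frestrictLe n) (measurableSet_singleton _),
      ← hp, frestrictLe_preimage]
    exact h n p
  have hproj : IsProjectiveMeasureFamily (α := fun _ : ℕ => S)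
      (fun I : Finset ℕ => ν'.map (Finset.restrict (π := fun _ => S) I)) := by
    intro I J hJI
    rw [Measure.map_map (Finset.measurable_restrict₂ _) (Finset.measurable_restrict _)]
    rfl
  have h1 : IsProjectiveLimit (α := fun _ : ℕ => S) ν
      (fun I : Finset ℕ => ν'.map (Finset.restrict (π := fun _ => S) I)) :=
    (isProjectiveLimit_nat_iff hproj ν).2 (fun n => key n)
  have h2 : IsProjectiveLimit (α := fun _ : ℕ => S) ν'
      (fun I : Finset ℕ => ν'.map (Finset.restrict (π := fun _ => S) I)) :=
    fun I => rfl
  exact h1.unique h2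

omit [Countable S] in
/-- Cylinder probabilities of the chain. -/
lemma chain_cyl (K : Kernel S S) [IsMarkovKernel K] (x : S) (n : ℕ) (p : ℕ → S) :
    chain K x {X | ∀ i ≤ n, X i = p i} =
      Measure.dirac x {p 0} * ∏ i ∈ Finset.range n, K (p i) {p (i + 1)} := by
  induction n with
  | zero =>
    have := congrArg (fun ν : Measure S => ν {p 0}) (map_eval_zero K x)
    beta_reduce at this
    rw [Measure.map_apply (measurable_pi_apply 0) (measurableSet_singleton _)] at this
    have h3 : {X : ℕ → S | ∀ i ≤ 0, X i = p i} = (fun X => X 0) ⁻¹' {p 0} := by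
      ext X; simp
    rw [h3, this]; simp
  | succ n ih =>
    have h := congrArg (fun ν => ν ({Preorder.frestrictLe (π := fun _ => S) n p} ×ˢ {p (n + 1)}))
      (Kernel.map_frestrictLe_trajMeasure_compProd_eq_map_trajMeasure
        (X := fun _ => S) (μ₀ := Measure.dirac x)
        (κ := fun n => K.comap (fun h : (Finset.Iic n → S) => h ⟨n, Finset.mem_Iic.2 le_rfl⟩)
          (measurable_pi_apply _)) (a := n))
    beta_reduce at h
    rw [Measure.compProd_apply_prod (measurableSet_singleton _) (measurableSet_singleton _),
      Measure.map_apply (by fun_prop)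
        ((measurableSet_singleton _).prod (measurableSet_singleton _)),
      lintegral_singleton, Measure.map_apply (by fun_prop) (measurableSet_singleton _),
      frestrictLe_preimage] at h
    have h3 : {X : ℕ → S | ∀ i ≤ n + 1, X i = p i} =
        (fun x : ℕ → S => (Preorder.frestrictLe (π := fun _ => S) n x, x (n + 1))) ⁻¹'
          ({Preorder.frestrictLe (π := fun _ => S) n p} ×ˢ {p (n + 1)}) := by
      ext X
      have := Set.ext_iff.1 (frestrictLe_preimage n p) X
      simp only [Set.mem_preimage, Set.mem_singleton_iff] at this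
      constructor
      · intro hX
        refine ⟨this.2 fun i hi => hX i (by omega), hX _ le_rfl⟩
      · rintro ⟨h1, h2⟩ i hi
        rcases Nat.lt_or_ge n i with h | h
        · obtain rfl : i = n + 1 := by omega
          exact h2
        · exact this.1 h1 i h
    rw [h3]
    unfold chain at ih ⊢
    rw [← h, ih, Finset.prod_range_succ, mul_comm, mul_assoc]
    rfl

/-- Time shift on path space. -/
def sh (X : ℕ → S) : ℕ → S := fun n => X (n + 1)

omit [Countable S] [MeasurableSingletonClass S] in
@[fun_prop]
lemma measurable_sh : Measurable (sh : (ℕ → S) → (ℕ → S)) :=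
  measurable_pi_lambda _ fun n => measurable_pi_apply (n + 1)

omit [Countable S] in
lemma chain_start (K : Kernel S S) [IsMarkovKernel K] (x : S) :
    ∀ᵐ X ∂(chain K x), X 0 = x := by
  have := congrArg (fun ν : Measure S => ν {x}ᶜ) (map_eval_zero K x)
  beta_reduce at this
  rw [Measure.map_apply (measurable_pi_apply 0) (measurableSet_singleton _).compl] at this
  rw [ae_iff]
  have h3 : {X : ℕ → S | ¬ X 0 = x} = (fun X => X 0) ⁻¹' {x}ᶜ := by
    ext X; simp
  rw [h3, this]; simp

lemma measurable_chain (K : Kernel S S) [IsMarkovKernel K] : Measurable (chain K) :=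
  measurable_of_countable _

/-- First-step decomposition: the law of the shifted chain. -/
lemma map_sh_chain (K : Kernel S S) [IsMarkovKernel K] (x : S) :
    (chain K x).map sh = (K x).bind (chain K) := by
  have hfin : IsProbabilityMeasure ((chain K x).map sh) :=
    Measure.isProbabilityMeasure_map (measurable_sh.aemeasurable)
  have hfin2 : IsProbabilityMeasure ((K x).bind (chain K)) := by
    refine ⟨?_⟩
    rw [Measure.bind_apply MeasurableSet.univ (measurable_chain K).aemeasurable]
    simp
  refine path_ext fun n p => ?_
  rw [Measure.map_apply measurable_sh (measurableSet_cyl n p),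
    Measure.bind_apply (measurableSet_cyl n p) (measurable_chain K).aemeasurable]
  have h1 : ∀ y, chain K y {X | ∀ i ≤ n, X i = p i} =
      Set.indicator {p 0} (fun _ => ∏ i ∈ Finset.range n, K (p i) {p (i + 1)}) y := by
    intro y
    rw [chain_cyl, Measure.dirac_apply]
    by_cases hy : y = p 0
    · subst hy; simp
    · simp [hy]
  simp_rw [h1]
  rw [lintegral_indicator (measurableSet_singleton _), setLIntegral_const]
  let q : ℕ → S := fun i => Nat.casesOn i x p
  have h2 : (chain K x) (sh ⁻¹' {X | ∀ i ≤ n, X i = p i}) =
      chain K x {X | ∀ i ≤ n + 1, X i = q i} := by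
    refine measure_congr ?_
    filter_upwards [chain_start K x] with X hX
    refine propext ?_
    constructor
    · intro h i hi
      rcases i with _ | i
      · exact hX
      · exact h i (by omega)
    · intro h i hi
      exact h (i + 1) (by omega)
  have hq0 : q 0 = x := rfl
  have hqs : ∀ i, q (i + 1) = p i := fun _ => rfl
  rw [h2, chain_cyl, Finset.prod_range_succ']
  simp only [hqs, hq0]
  rw [Measure.dirac_apply_of_mem (Set.mem_singleton _), one_mul]

/-- The Markov property at time one. -/
lemma chain_sh_apply (K : Kernel S S) [IsMarkovKernel K] (x : S) {B : Set (ℕ → S)}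
    (hB : MeasurableSet B) :
    chain K x {X | sh X ∈ B} = ∫⁻ y, chain K y B ∂(K x) := by
  have := congrArg (fun ν : Measure (ℕ → S) => ν B) (map_sh_chain K x)
  beta_reduce at this
  rwa [Measure.map_apply measurable_sh hB,
    Measure.bind_apply hB (measurable_chain K).aemeasurable] at this

end General

end Vale.Agent.P147
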