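import Mathlib
import Vale.Agent.Lib.P147.Defs
import Vale.Agent.Lib.P147.Chain

open MeasureTheory ProbabilityTheory Filter
open scoped ENNReal

namespace Vale.Agent.P147

variable {d : ℕ}

lemma quenched_eq_chain (ω : Env d) (x : Fin d → ℤ) : quenched ω x = chain (stepKernel ω) x := rfl

instance (ω : Env d) (x : Fin d → ℤ) : IsProbabilityMeasure (quenched ω x) := by
  rw [quenched_eq_chain]; infer_instance

/-- Average of `f` after one step of the walk. -/
noncomputable def avg (ω : Env d) (f : (Fin d → ℤ) → ℝ) (x : Fin d → ℤ) : ℝ :=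
  ∑ e : Step d, (ω x).1 e * f (x + stepVec e)

lemma row_nonneg (p : Row d) (e : Step d) : 0 ≤ p.1 e := p.2.1 e

lemma row_sum (p : Row d) : ∑ e, p.1 e = 1 := p.2.2

lemma avg_mono (ω : Env d) {f g : (Fin d → ℤ) → ℝ} (h : ∀ y, f y ≤ g y) (x : Fin d → ℤ) :
    avg ω f x ≤ avg ω g x :=
  Finset.sum_le_sum fun e _ => mul_le_mul_of_nonneg_left (h _) (row_nonneg _ _)

lemma avg_nonneg (ω : Env d) {f : (Fin d → ℤ) → ℝ} (h : ∀ y, 0 ≤ f y) (x : Fin d → ℤ) :
    0 ≤ avg ω f x :=
  Finset.sum_nonneg fun e _ => mul_nonneg (row_nonneg _ _) (h _)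

lemma avg_one_sub (ω : Env d) (f : (Fin d → ℤ) → ℝ) (x : Fin d → ℤ) :
    avg ω (fun y => 1 - f y) x = 1 - avg ω f x := by
  unfold avg
  simp only [mul_sub, mul_one, Finset.sum_sub_distrib, row_sum]

lemma lintegral_stepKernel (ω : Env d) (x : Fin d → ℤ) (f : (Fin d → ℤ) → ℝ≥0∞) :
    ∫⁻ y, f y ∂(stepKernel ω x) =
      ∑ e : Step d, ENNReal.ofReal ((ω x).1 e) * f (x + stepVec e) := by
  rw [stepKernel_apply, lintegral_finset_sum_measure]
  refine Finset.sum_congr rfl fun e _ => ?_
  rw [lintegral_smul_measure, lintegral_dirac, smul_eq_mul]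

/-- The Markov property at time one, for real-valued probabilities. -/
lemma real_sh (ω : Env d) (x : Fin d → ℤ) {B : Set (ℕ → Fin d → ℤ)} (hB : MeasurableSet B) :
    (quenched ω x).real {X | sh X ∈ B} = avg ω (fun y => (quenched ω y).real B) x := by
  have h := chain_sh_apply (stepKernel ω) x hB
  rw [lintegral_stepKernel] at h
  simp only [← quenched_eq_chain] at h
  unfold Measure.real
  rw [h, ENNReal.toReal_sum]
  · refine Finset.sum_congr rfl fun e _ => ?_
    rw [ENNReal.toReal_mul, ENNReal.toReal_ofReal (row_nonneg _ _)]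
  · intro e _
    exact ENNReal.mul_ne_top ENNReal.ofReal_ne_top (measure_ne_top _ _)

lemma quenched_start (ω : Env d) (x : Fin d → ℤ) : ∀ᵐ X ∂(quenched ω x), X 0 = x :=
  chain_start (stepKernel ω) x

/-- Probability of staying in `T` forever. -/
noncomputable def stay (ω : Env d) (T : Set (Fin d → ℤ)) (x : Fin d → ℤ) : ℝ :=
  (quenched ω x).real {X | ∀ n, X n ∈ T}

/-- Probability of being in `T` eventually always. -/
noncomputable def evt (ω : Env d) (T : Set (Fin d → ℤ)) (x : Fin d → ℤ) : ℝ :=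
  (quenched ω x).real {X | ∃ n, ∀ k ≥ n, X k ∈ T}

lemma measurableSet_coord (T : Set (Fin d → ℤ)) (k : ℕ) :
    MeasurableSet {X : ℕ → Fin d → ℤ | X k ∈ T} :=
  (measurable_pi_apply k) (Set.to_countable T).measurableSet

lemma measurableSet_stayUpTo (T : Set (Fin d → ℤ)) (n : ℕ) :
    MeasurableSet {X : ℕ → Fin d → ℤ | ∀ k ≤ n, X k ∈ T} := by
  have : {X : ℕ → Fin d → ℤ | ∀ k ≤ n, X k ∈ T} = ⋂ k ∈ Set.Iic n, {X | X k ∈ T} := by
    ext X; simp
  rw [this]
  exact MeasurableSet.biInter (Set.to_countable _) fun k _ => measurableSet_coord T k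

lemma measurableSet_stayFrom (T : Set (Fin d → ℤ)) (n : ℕ) :
    MeasurableSet {X : ℕ → Fin d → ℤ | ∀ k ≥ n, X k ∈ T} := by
  have : {X : ℕ → Fin d → ℤ | ∀ k ≥ n, X k ∈ T} = ⋂ k ∈ Set.Ici n, {X | X k ∈ T} := by
    ext X; simp
  rw [this]
  exact MeasurableSet.biInter (Set.to_countable _) fun k _ => measurableSet_coord T k

lemma measurableSet_stay (T : Set (Fin d → ℤ)) :
    MeasurableSet {X : ℕ → Fin d → ℤ | ∀ n, X n ∈ T} := by
  have : {X : ℕ → Fin d → ℤ | ∀ n, X n ∈ T} = {X | ∀ k ≥ 0, X k ∈ T} := by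
    ext X; simp
  rw [this]
  exact measurableSet_stayFrom T 0

lemma stay_nonneg (ω : Env d) (T : Set (Fin d → ℤ)) (x : Fin d → ℤ) : 0 ≤ stay ω T x :=
  measureReal_nonneg

lemma stay_le_one (ω : Env d) (T : Set (Fin d → ℤ)) (x : Fin d → ℤ) : stay ω T x ≤ 1 :=
  measureReal_le_one

lemma evt_nonneg (ω : Env d) (T : Set (Fin d → ℤ)) (x : Fin d → ℤ) : 0 ≤ evt ω T x :=
  measureReal_nonneg

lemma evt_le_one (ω : Env d) (T : Set (Fin d → ℤ)) (x : Fin d → ℤ) : evt ω T x ≤ 1 :=
  measureReal_le_one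

lemma stay_of_notMem (ω : Env d) {T : Set (Fin d → ℤ)} {x : Fin d → ℤ} (hx : x ∉ T) :
    stay ω T x = 0 := by
  unfold stay
  rw [measureReal_eq_zero_iff]
  rw [← nonpos_iff_eq_zero]
  calc quenched ω x {X | ∀ n, X n ∈ T} ≤ quenched ω x {X | ¬ X 0 = x} := by
        refine measure_mono fun X hX hX0 => hx ?_
        have := hX 0
        rwa [hX0] at this
    _ = 0 := ae_iff.1 (quenched_start ω x)

lemma stay_of_mem (ω : Env d) {T : Set (Fin d → ℤ)} {x : Fin d → ℤ} (hx : x ∈ T) :
    stay ω T x = avg ω (stay ω T) x := by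
  have h1 : stay ω T x = (quenched ω x).real {X | sh X ∈ {X : ℕ → Fin d → ℤ | ∀ n, X n ∈ T}} := by
    unfold stay
    refine measureReal_congr ?_
    filter_upwards [quenched_start ω x] with X hX
    refine propext ⟨fun h n => h (n + 1), fun h n => ?_⟩
    rcases n with _ | n
    · show X 0 ∈ T
      rw [hX]; exact hx
    · exact h n
  rw [h1, real_sh ω x (measurableSet_stay T)]
  rfl

lemma stay_le_avg (ω : Env d) (T : Set (Fin d → ℤ)) (x : Fin d → ℤ) :
    stay ω T x ≤ avg ω (stay ω T) x := by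
  by_cases hx : x ∈ T
  · exact (stay_of_mem ω hx).le
  · rw [stay_of_notMem ω hx]
    exact avg_nonneg ω (stay_nonneg ω T) x

/-- `stay` is the largest subsolution. -/
lemma le_stay (ω : Env d) (T : Set (Fin d → ℤ)) {f : (Fin d → ℤ) → ℝ} (h1 : ∀ x, f x ≤ 1)
    (h0 : ∀ x, x ∉ T → f x ≤ 0) (hf : ∀ x, f x ≤ avg ω f x) (x : Fin d → ℤ) :
    f x ≤ stay ω T x := by
  have key : ∀ n : ℕ, ∀ x, f x ≤ (quenched ω x).real {X | ∀ k ≤ n, X k ∈ T} := by
    intro n
    induction n with
    | zero =>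
      intro x
      by_cases hx : x ∈ T
      · have : (quenched ω x).real {X | ∀ k ≤ 0, X k ∈ T} = 1 := by
          have h2 : (quenched ω x).real {X | ∀ k ≤ 0, X k ∈ T} = (quenched ω x).real Set.univ := by
            refine measureReal_congr ?_
            filter_upwards [quenched_start ω x] with X hX
            refine propext ⟨fun _ => trivial, fun _ k hk => ?_⟩
            obtain rfl : k = 0 := by omega
            rw [hX]; exact hx
          rw [h2]; simp
        rw [this]; exact h1 x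
      · exact (h0 x hx).trans measureReal_nonneg
    | succ n ih =>
      intro x
      by_cases hx : x ∈ T
      · have h2 : (quenched ω x).real {X | ∀ k ≤ n + 1, X k ∈ T} =
            (quenched ω x).real {X | sh X ∈ {X : ℕ → Fin d → ℤ | ∀ k ≤ n, X k ∈ T}} := by
          refine measureReal_congr ?_
          filter_upwards [quenched_start ω x] with X hX
          refine propext ⟨fun h k hk => h (k + 1) (by omega), fun h k hk => ?_⟩
          rcases k with _ | k
          · show X 0 ∈ T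
            rw [hX]; exact hx
          · exact h k (by omega)
        rw [h2, real_sh ω x (measurableSet_stayUpTo T n)]
        exact (hf x).trans (avg_mono ω ih x)
      · exact (h0 x hx).trans measureReal_nonneg
  have hlim : Tendsto (fun n : ℕ => (quenched ω x).real {X | ∀ k ≤ n, X k ∈ T}) atTop
      (nhds (stay ω T x)) := by
    have h3 : {X : ℕ → Fin d → ℤ | ∀ n, X n ∈ T} = ⋂ n : ℕ, {X | ∀ k ≤ n, X k ∈ T} := by
      ext X
      simp only [Set.mem_setOf_eq, Set.mem_iInter]
      exact ⟨fun h n k _ => h k, fun h n => h n n le_rfl⟩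
    unfold stay Measure.real
    rw [h3]
    refine (ENNReal.tendsto_toReal (measure_ne_top _ _)).comp ?_
    refine tendsto_measure_iInter_atTop (fun n => (measurableSet_stayUpTo T n).nullMeasurableSet)
      ?_ ⟨0, measure_ne_top _ _⟩
    intro n m hnm X hX k hk
    exact hX k (hk.trans hnm)
  exact ge_of_tendsto' hlim fun n => key n x

lemma evt_eq_avg (ω : Env d) (T : Set (Fin d → ℤ)) (x : Fin d → ℤ) :
    evt ω T x = avg ω (evt ω T) x := by
  have hm : MeasurableSet {X : ℕ → Fin d → ℤ | ∃ n, ∀ k ≥ n, X k ∈ T} := by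
    have : {X : ℕ → Fin d → ℤ | ∃ n, ∀ k ≥ n, X k ∈ T} = ⋃ n, {X | ∀ k ≥ n, X k ∈ T} := by
      ext X; simp
    rw [this]
    exact MeasurableSet.iUnion fun n => measurableSet_stayFrom T n
  have h1 : evt ω T x =
      (quenched ω x).real {X | sh X ∈ {X : ℕ → Fin d → ℤ | ∃ n, ∀ k ≥ n, X k ∈ T}} := by
    unfold evt
    congr 1
    ext X
    constructor
    · rintro ⟨n, hn⟩
      exact ⟨n, fun k hk => hn (k + 1) (by omega)⟩
    · rintro ⟨n, hn⟩
      refine ⟨n + 1, fun k hk => ?_⟩
      obtain ⟨j, rfl⟩ : ∃ j, k = j + 1 := ⟨k - 1, by omega⟩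
      exact hn j (by omega)
  rw [h1, real_sh ω x hm]
  rfl

/-- `evt` is the smallest supersolution above `stay`. -/
lemma evt_le (ω : Env d) (T : Set (Fin d → ℤ)) {g : (Fin d → ℤ) → ℝ}
    (hs : ∀ x, stay ω T x ≤ g x) (hg : ∀ x, avg ω g x ≤ g x) (x : Fin d → ℤ) :
    evt ω T x ≤ g x := by
  have key : ∀ n : ℕ, ∀ x, (quenched ω x).real {X | ∀ k ≥ n, X k ∈ T} ≤ g x := by
    intro n
    induction n with
    | zero =>
      intro x
      refine le_trans (le_of_eq ?_) (hs x)
      unfold stay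
      simp
    | succ n ih =>
      intro x
      have h2 : (quenched ω x).real {X | ∀ k ≥ n + 1, X k ∈ T} =
          (quenched ω x).real {X | sh X ∈ {X : ℕ → Fin d → ℤ | ∀ k ≥ n, X k ∈ T}} := by
        congr 1
        ext X
        constructor
        · intro h k hk
          exact h (k + 1) (by omega)
        · intro h k hk
          obtain ⟨j, rfl⟩ : ∃ j, k = j + 1 := ⟨k - 1, by omega⟩
          exact h j (by omega)
      rw [h2, real_sh ω x (measurableSet_stayFrom T n)]
      exact (avg_mono ω ih x).trans (hg x)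
  have hlim : Tendsto (fun n : ℕ => (quenched ω x).real {X | ∀ k ≥ n, X k ∈ T}) atTop
      (nhds (evt ω T x)) := by
    have h3 : {X : ℕ → Fin d → ℤ | ∃ n, ∀ k ≥ n, X k ∈ T} = ⋃ n, {X | ∀ k ≥ n, X k ∈ T} := by
      ext X; simp
    unfold evt Measure.real
    rw [h3]
    refine (ENNReal.tendsto_toReal (measure_ne_top _ _)).comp ?_
    refine tendsto_measure_iUnion_atTop ?_
    intro n m hnm X hX k hk
    exact hX k (hnm.trans hk)
  exact le_of_tendsto' hlim fun n => key n x

end Vale.Agent.P147
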