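import Mathlib
import Vale.Agent.Lib.P147.Defs
import Vale.Agent.Lib.P147.Walk

open MeasureTheory ProbabilityTheory Filter
open scoped ENNReal

namespace Vale.Agent.P147

variable {d : ℕ}

lemma Par.neg_iff {w v : Fin d → ℤ} : Par (-w) v ↔ Par w v := by
  constructor
  · rintro ⟨k, rfl⟩; exact ⟨-k, by simp⟩
  · rintro ⟨k, rfl⟩; exact ⟨-k, by simp⟩

lemma Par.zero (w : Fin d → ℤ) : Par w 0 := ⟨0, by simp⟩

lemma Par.symm_sub {w u v : Fin d → ℤ} (h : Par w (u - v)) : Par w (v - u) := by
  obtain ⟨k, hk⟩ := h
  exact ⟨-k, by rw [neg_smul, ← hk]; abel⟩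

lemma Par.add {w u v : Fin d → ℤ} (h : Par w u) (h' : Par w v) : Par w (u + v) := by
  obtain ⟨k, rfl⟩ := h
  obtain ⟨j, rfl⟩ := h'
  exact ⟨k + j, by rw [add_smul]⟩

lemma Par.trans_sub {w u v z : Fin d → ℤ} (h : Par w (u - v)) (h' : Par w (v - z)) :
    Par w (u - z) := by
  have := h.add h'
  rwa [sub_add_sub_cancel] at this

lemma stepVec_apply_self (e : Step d) : stepVec e e.1 = if e.2 then 1 else -1 := by
  simp [stepVec]

lemma stepVec_apply_ne (e : Step d) {i : Fin d} (h : i ≠ e.1) : stepVec e i = 0 := by
  simp [stepVec, h]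

/-- Two unit steps outside `ℤ w` differ by at most one multiple of `w`. -/
lemma le_one_of_sub_eq {w : Fin d → ℤ} (hw : w ≠ 0) {e f : Step d} (he : ¬ Par w (stepVec e))
    {j : ℤ} (h : stepVec e - stepVec f = j • w) : j ≤ 1 := by
  by_contra hj
  push Not at hj
  have hi : stepVec e e.1 - stepVec f e.1 = j * w e.1 := by
    have := congrFun h e.1
    simpa using this
  rw [stepVec_apply_self] at hi
  by_cases hef : e.1 = f.1
  · have h2 : stepVec f e.1 = if f.2 then 1 else -1 := by
      rw [hef]; exact stepVec_apply_self f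
    rw [h2] at hi
    by_cases hs : e.2 = f.2
    · have : e = f := Prod.ext hef hs
      subst this
      have : j • w = 0 := by rw [← h]; simp
      rcases smul_eq_zero.1 this with h3 | h3
      · omega
      · exact hw h3
    · -- opposite steps
      have h4 : j * w e.1 = 2 ∨ j * w e.1 = -2 := by
        rw [← hi]
        rcases e with ⟨i, b⟩
        rcases f with ⟨i', b'⟩
        simp only at hs
        cases b <;> cases b' <;> simp_all
      have hj2 : j = 2 := by
        have hdvd : j ∣ 2 := by
          rcases h4 with h4 | h4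
          · exact ⟨_, h4.symm⟩
          · exact ⟨-w e.1, by rw [mul_neg, h4]; norm_num⟩
        have := Int.le_of_dvd (by norm_num) hdvd
        omega
      subst hj2
      apply he
      refine ⟨if e.2 then w e.1 else - w e.1, ?_⟩
      funext i
      by_cases hie : i = e.1
      · subst hie
        have hwi : w e.1 = 1 ∨ w e.1 = -1 := by omega
        rw [stepVec_apply_self]
        simp only [Pi.smul_apply, smul_eq_mul]
        rcases hb : e.2 with _ | _ <;> rcases hwi with h5 | h5 <;> simp [h5]
      · have h6 := congrFun h i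
        simp only [Pi.sub_apply, Pi.smul_apply, smul_eq_mul] at h6
        rw [stepVec_apply_ne e hie, stepVec_apply_ne f (hef ▸ hie)] at h6
        have h7 : w i = 0 := by omega
        rw [stepVec_apply_ne e hie]
        simp [h7]
  · have h2 : stepVec f e.1 = 0 := stepVec_apply_ne f hef
    rw [h2] at hi
    have hdvd : j ∣ 1 := by
      rcases hb : e.2 with _ | _
      · exact ⟨-w e.1, by rw [mul_neg, ← hi, hb]; simp⟩
      · exact ⟨w e.1, by rw [← hi, hb]; simp⟩
    have := Int.le_of_dvd (by norm_num) hdvd
    omega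

/-- A unit step in `ℤ w` is `w` or `-w`. -/
lemma par_step {w : Fin d → ℤ} {e : Step d} (he : Par w (stepVec e)) :
    stepVec e = w ∨ stepVec e = -w := by
  obtain ⟨k, hk⟩ := he
  have h1 : stepVec e e.1 = k * w e.1 := by
    have := congrFun hk e.1
    simpa using this
  rw [stepVec_apply_self] at h1
  have h2 : k = 1 ∨ k = -1 := by
    have : IsUnit k := by
      rcases hb : e.2 with _ | _
      · rw [hb] at h1
        exact IsUnit.of_mul_eq_one (-w e.1) (by simp at h1; linarith)
      · rw [hb] at h1
        exact IsUnit.of_mul_eq_one (w e.1) (by simp at h1; linarith)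
    exact Int.isUnit_iff.1 this
  rcases h2 with rfl | rfl
  · left; simpa using hk
  · right; simpa using hk

open Classical in
/-- Summing a class function over the steps outside `ℤ w`. -/
lemma class_sum {w : Fin d → ℤ} {q : Step d → ℝ} {p : Step d → ℝ} {lam : ℝ}
    (hq : ∀ e : Step d, ¬ Par w (stepVec e) →
      ∑ f : Step d with Par w (stepVec f - stepVec e), p f = lam * q e)
    (F : Step d → ℝ) (hF : ∀ e f : Step d, Par w (stepVec f - stepVec e) → F e = F f) :
    ∑ e : Step d with ¬ Par w (stepVec e), p e * F e =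
      lam * ∑ e : Step d with ¬ Par w (stepVec e),
        q e * F e / (Finset.univ.filter fun f : Step d => Par w (stepVec f - stepVec e)).card := by
  set N : Step d → ℝ := fun e =>
    ((Finset.univ.filter fun f : Step d => Par w (stepVec f - stepVec e)).card : ℝ) with hN
  have hNpos : ∀ e, N e ≠ 0 := by
    intro e
    have : e ∈ Finset.univ.filter fun f : Step d => Par w (stepVec f - stepVec e) := by
      simp [Par.zero]
    have h2 : 0 < (Finset.univ.filter fun f : Step d => Par w (stepVec f - stepVec e)).card :=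
      Finset.card_pos.2 ⟨e, this⟩
    simp only [hN]
    positivity
  have hNeq : ∀ e f : Step d, Par w (stepVec f - stepVec e) → N e = N f := by
    intro e f hef
    simp only [hN]
    congr 2
    ext g
    simp only [Finset.mem_filter, Finset.mem_univ, true_and]
    exact ⟨fun h => h.trans_sub hef.symm_sub, fun h => h.trans_sub hef⟩
  have hlat : ∀ e f : Step d, Par w (stepVec f - stepVec e) →
      (¬ Par w (stepVec e) ↔ ¬ Par w (stepVec f)) := by
    intro e f hef
    rw [not_iff_not]
    constructor
    · intro h
      have := hef.add h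
      rwa [sub_add_cancel] at this
    · intro h
      have := hef.symm_sub.add h
      rwa [sub_add_cancel] at this
  calc ∑ e : Step d with ¬ Par w (stepVec e), p e * F e
      = ∑ e : Step d with ¬ Par w (stepVec e), ∑ f : Step d with ¬ Par w (stepVec f),
          (if Par w (stepVec f - stepVec e) then p e * F e / N e else 0) := by
        refine Finset.sum_congr rfl fun e he => ?_
        rw [← Finset.sum_filter, Finset.filter_filter]
        have h3 : (Finset.univ.filter fun f : Step d =>
            ¬ Par w (stepVec f) ∧ Par w (stepVec f - stepVec e)) =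
            Finset.univ.filter fun f : Step d => Par w (stepVec f - stepVec e) := by
          ext f
          simp only [Finset.mem_filter, Finset.mem_univ, true_and] at he ⊢
          exact ⟨fun h => h.2, fun h => ⟨(hlat e f h).1 he, h⟩⟩
        rw [h3, Finset.sum_const, nsmul_eq_mul]
        have := hNpos e
        simp only [hN] at this ⊢
        field_simp
    _ = ∑ f : Step d with ¬ Par w (stepVec f), ∑ e : Step d with ¬ Par w (stepVec e),
          (if Par w (stepVec f - stepVec e) then p e * F e / N e else 0) := Finset.sum_comm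
    _ = ∑ f : Step d with ¬ Par w (stepVec f), lam * (q f * F f / N f) := by
        refine Finset.sum_congr rfl fun f hf => ?_
        rw [← Finset.sum_filter, Finset.filter_filter]
        have hf' : ¬ Par w (stepVec f) := by simpa using hf
        have h3 : (Finset.univ.filter fun e : Step d =>
            ¬ Par w (stepVec e) ∧ Par w (stepVec f - stepVec e)) =
            Finset.univ.filter fun e : Step d => Par w (stepVec e - stepVec f) := by
          ext e
          simp only [Finset.mem_filter, Finset.mem_univ, true_and]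
          exact ⟨fun h => h.2.symm_sub, fun h => ⟨(hlat f e h).1 hf', h.symm_sub⟩⟩
        rw [h3]
        have h4 : ∑ e : Step d with Par w (stepVec e - stepVec f), p e * F e / N e =
            ∑ e : Step d with Par w (stepVec e - stepVec f), p e * (F f / N f) := by
          refine Finset.sum_congr rfl fun e he => ?_
          have he' : Par w (stepVec e - stepVec f) := by simpa using he
          rw [hF e f he'.symm_sub, hNeq e f he'.symm_sub, mul_div_assoc]
        rw [h4, ← Finset.sum_mul, hq f hf']
        ring
    _ = _ := by rw [Finset.mul_sum]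

open Classical in
/-- Mass of the steps in `ℤ w`. -/
noncomputable def parMass (w : Fin d → ℤ) (p : Row d) : ℝ :=
  ∑ e : Step d with Par w (stepVec e), p.1 e

lemma parMass_nonneg (w : Fin d → ℤ) (p : Row d) : 0 ≤ parMass w p :=
  Finset.sum_nonneg fun _ _ => row_nonneg _ _

open Classical in
lemma parMass_add (w : Fin d → ℤ) (p : Row d) :
    parMass w p + ∑ e : Step d with ¬ Par w (stepVec e), p.1 e = 1 := by
  unfold parMass
  rw [Finset.sum_filter_add_sum_filter_not, row_sum]

open Classical in
/-- The deterministic properties of the environment that are used. -/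
structure GoodEnv (w : Fin d → ℤ) (q : Step d → ℝ) (ω : Env d) : Prop where
  class_eq : ∀ (x : Fin d → ℤ) (e : Step d), ¬ Par w (stepVec e) →
    ∑ f : Step d with Par w (stepVec f - stepVec e), (ω x).1 f =
      (∑ f : Step d with ¬ Par w (stepVec f), (ω x).1 f) * q e
  par_lt : ∀ x, parMass w (ω x) < 1
  prod : ∀ x : Fin d → ℤ,
    Tendsto (fun n : ℕ => ∏ j ∈ Finset.range n, parMass w (ω (x - (j : ℤ) • w))) atTop (nhds 0)

/-- A one-dimensional maximum principle. -/
lemma seq_max {E a : ℕ → ℝ} {G : ℝ} (h1 : ∀ k, E k ≤ 1) (ha0 : ∀ k, 0 ≤ a k)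
    (ha1 : ∀ k, a k < 1)
    (hE : ∀ k, E (k + 1) ≤ a (k + 1) * max (E k) (E (k + 2)) + (1 - a (k + 1)) * G)
    (hprod : ∀ k0, Tendsto (fun n : ℕ => ∏ j ∈ Finset.range n, a (k0 + j)) atTop (nhds 0)) :
    ∀ k, E (k + 1) ≤ max (E 0) G := by
  by_contra hcon
  push Not at hcon
  classical
  have hex : ∃ k, max (E 0) G < E (k + 1) := hcon
  set k0 := Nat.find hex with hk0
  have hk0s : max (E 0) G < E (k0 + 1) := Nat.find_spec hex
  have hprev : E k0 ≤ E (k0 + 1) := by
    rcases Nat.eq_zero_or_pos k0 with h0 | hpos
    · rw [h0] at hk0s ⊢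
      exact ((le_max_left _ _).trans_lt hk0s).le
    · obtain ⟨j, hj⟩ : ∃ j, k0 = j + 1 := ⟨k0 - 1, by omega⟩
      have := Nat.find_min hex (m := j) (by omega)
      rw [not_lt] at this
      rw [hj] at hk0s ⊢
      exact this.trans hk0s.le
  have hG : G < E (k0 + 1) := (le_max_right _ _).trans_lt hk0s
  have key : ∀ n : ℕ, 0 < E (k0 + 1 + n) - G ∧ E (k0 + n) ≤ E (k0 + 1 + n) ∧
      E (k0 + 1) - G ≤ (∏ j ∈ Finset.range n, a (k0 + 1 + j)) * (E (k0 + 1 + n) - G) := by
    intro n
    induction n with
    | zero => exact ⟨by simpa using hG, by simpa using hprev, by simp⟩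
    | succ n ih =>
      obtain ⟨ih1, ih2, ih3⟩ := ih
      have h := hE (k0 + n)
      have e1 : k0 + n + 1 = k0 + 1 + n := by ring
      have e2 : k0 + n + 2 = k0 + 1 + (n + 1) := by ring
      rw [e1, e2] at h
      set A := a (k0 + 1 + n) with hA
      have hA0 : 0 ≤ A := ha0 _
      have hA1 : A < 1 := ha1 _
      have hstep : E (k0 + 1 + n) - G ≤ A * (E (k0 + 1 + (n + 1)) - G) := by
        rcases le_total (E (k0 + 1 + (n + 1))) (E (k0 + n)) with hle | hle
        · rw [max_eq_left hle] at h
          exfalso
          nlinarith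
        · rw [max_eq_right hle] at h
          linarith
      have hpos : 0 < E (k0 + 1 + (n + 1)) - G := by
        by_contra hneg
        push Not at hneg
        nlinarith
      have e3 : k0 + (n + 1) = k0 + 1 + n := by ring
      refine ⟨hpos, ?_, ?_⟩
      · rw [e3]
        nlinarith
      · rw [Finset.prod_range_succ]
        have hP : 0 ≤ ∏ j ∈ Finset.range n, a (k0 + 1 + j) :=
          Finset.prod_nonneg fun _ _ => ha0 _
        calc E (k0 + 1) - G ≤ (∏ j ∈ Finset.range n, a (k0 + 1 + j)) * (E (k0 + 1 + n) - G) := ih3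
          _ ≤ (∏ j ∈ Finset.range n, a (k0 + 1 + j)) * (A * (E (k0 + 1 + (n + 1)) - G)) :=
              mul_le_mul_of_nonneg_left hstep hP
          _ = _ := by ring
  have hlim : Tendsto (fun n : ℕ => (∏ j ∈ Finset.range n, a (k0 + 1 + j)) * (1 - G)) atTop
      (nhds (0 * (1 - G))) := (hprod (k0 + 1)).mul_const _
  rw [zero_mul] at hlim
  have hle : E (k0 + 1) - G ≤ 0 := by
    refine ge_of_tendsto' hlim fun n => ?_
    refine (key n).2.2.trans ?_
    refine mul_le_mul_of_nonneg_left ?_ (Finset.prod_nonneg fun _ _ => ha0 _)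
    linarith [h1 (k0 + 1 + n)]
  linarith

/-- The upper envelope of `f` in the direction `-w`. -/
noncomputable def env (w : Fin d → ℤ) (f : (Fin d → ℤ) → ℝ) (x : Fin d → ℤ) : ℝ :=
  ⨆ k : ℕ, f (x - (k : ℤ) • w)

lemma bdd_env {w : Fin d → ℤ} {f : (Fin d → ℤ) → ℝ} (h1 : ∀ x, f x ≤ 1) (x : Fin d → ℤ) :
    BddAbove (Set.range fun k : ℕ => f (x - (k : ℤ) • w)) :=
  ⟨1, by rintro _ ⟨k, rfl⟩; exact h1 _⟩

lemma le_env {w : Fin d → ℤ} {f : (Fin d → ℤ) → ℝ} (h1 : ∀ x, f x ≤ 1) (x : Fin d → ℤ) (k : ℕ) :
    f (x - (k : ℤ) • w) ≤ env w f x :=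
  le_ciSup (bdd_env h1 x) k

lemma le_env_zero {w : Fin d → ℤ} {f : (Fin d → ℤ) → ℝ} (h1 : ∀ x, f x ≤ 1) (x : Fin d → ℤ) :
    f x ≤ env w f x := by
  simpa using le_env (w := w) h1 x 0

lemma env_le_one {w : Fin d → ℤ} {f : (Fin d → ℤ) → ℝ} (h1 : ∀ x, f x ≤ 1) (x : Fin d → ℤ) :
    env w f x ≤ 1 := ciSup_le fun _ => h1 _

/-- `f (y - j w) ≤ env f y` for integers `j ≥ 0`. -/
lemma le_env_int {w : Fin d → ℤ} {f : (Fin d → ℤ) → ℝ} (h1 : ∀ x, f x ≤ 1) (y : Fin d → ℤ)
    {j : ℤ} (hj : 0 ≤ j) : f (y - j • w) ≤ env w f y := by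
  obtain ⟨k, rfl⟩ := Int.eq_ofNat_of_zero_le hj
  exact le_env h1 y k

open Classical in
/-- The envelope of a subsolution is a subsolution. -/
lemma env_sub {w : Fin d → ℤ} (hw : w ≠ 0) {q : Step d → ℝ} {ω : Env d} (hω : GoodEnv w q ω)
    {f : (Fin d → ℤ) → ℝ} (h1 : ∀ x, f x ≤ 1) (hf : ∀ x, f x ≤ avg ω f x) (x : Fin d → ℤ) :
    env w f x ≤ avg ω (env w f) x := by
  set m := env w f x with hm
  by_cases hE0 : m ≤ f x
  · exact hE0.trans ((hf x).trans (avg_mono ω (fun y => le_env_zero h1 y) x))
  push Not at hE0
  -- class-wise minimum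
  let C : Step d → Finset (Step d) := fun e =>
    Finset.univ.filter fun g : Step d => Par w (stepVec g - stepVec e)
  have hCne : ∀ e, (C e).Nonempty := fun e => ⟨e, by simp [C, Par.zero]⟩
  let F : Step d → ℝ := fun e => (C e).inf' (hCne e) fun g => env w f (x + stepVec g)
  have hF : ∀ e g : Step d, Par w (stepVec g - stepVec e) → F e = F g := by
    intro e g heg
    have : C e = C g := by
      ext h
      simp only [C, Finset.mem_filter, Finset.mem_univ, true_and]
      exact ⟨fun h' => h'.trans_sub heg.symm_sub, fun h' => h'.trans_sub heg⟩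
    simp only [F]
    congr 1
  set G : ℝ := ∑ e : Step d with ¬ Par w (stepVec e),
    q e * F e / (Finset.univ.filter fun g : Step d => Par w (stepVec g - stepVec e)).card with hG
  have hsum : ∀ y : Fin d → ℤ, ∑ e : Step d with ¬ Par w (stepVec e), (ω y).1 e * F e =
      (1 - parMass w (ω y)) * G := by
    intro y
    rw [class_sum (fun e he => hω.class_eq y e he) F hF]
    congr 1
    linarith [parMass_add w (ω y)]
  have hsplit : ∀ (y : Fin d → ℤ) (g : (Fin d → ℤ) → ℝ), avg ω g y =
      (∑ e : Step d with Par w (stepVec e), (ω y).1 e * g (y + stepVec e)) +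
      ∑ e : Step d with ¬ Par w (stepVec e), (ω y).1 e * g (y + stepVec e) := by
    intro y g
    unfold avg
    rw [Finset.sum_filter_add_sum_filter_not]
  -- the sequence along the line
  have hmax : ∀ k : ℕ, f (x - ((k + 1 : ℕ) : ℤ) • w) ≤ max (f (x - ((0 : ℕ) : ℤ) • w)) G := by
    refine seq_max (E := fun k : ℕ => f (x - (k : ℤ) • w))
      (a := fun k : ℕ => parMass w (ω (x - (k : ℤ) • w))) (G := G)
      (fun k => h1 _) (fun k => parMass_nonneg _ _) (fun k => hω.par_lt _) ?_ ?_
    · intro k
      refine (hf _).trans ?_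
      rw [hsplit, ← hsum]
      refine add_le_add ?_ ?_
      · unfold parMass
        rw [Finset.sum_mul]
        refine Finset.sum_le_sum fun e he => mul_le_mul_of_nonneg_left ?_ (row_nonneg _ _)
        have he' : Par w (stepVec e) := by simpa using he
        rcases par_step he' with h | h
        · refine le_max_of_le_left (le_of_eq ?_)
          rw [h]
          congr 1
          push_cast
          rw [add_smul, one_smul]
          abel
        · refine le_max_of_le_right (le_of_eq ?_)
          rw [h]
          congr 1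
          push_cast
          rw [add_smul, add_smul, one_smul, two_smul]
          abel
      · refine Finset.sum_le_sum fun e he => mul_le_mul_of_nonneg_left ?_ (row_nonneg _ _)
        have he' : ¬ Par w (stepVec e) := by simpa using he
        refine Finset.le_inf' _ _ fun g hg => ?_
        have hg' : Par w (stepVec g - stepVec e) := by simpa [C] using hg
        obtain ⟨j, hj⟩ := hg'.symm_sub
        have hj1 : j ≤ 1 := le_one_of_sub_eq hw he' hj
        have h3 : x - ((k + 1 : ℕ) : ℤ) • w + stepVec e =
            (x + stepVec g) - (((k + 1 : ℕ) : ℤ) - j) • w := by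
          rw [sub_smul, ← hj]; abel
        rw [h3]
        exact le_env_int h1 _ (by push_cast; omega)
    · intro k0
      have := hω.prod (x - (k0 : ℤ) • w)
      refine this.congr fun n => ?_
      refine Finset.prod_congr rfl fun j _ => ?_
      congr 2
      push_cast
      rw [add_smul]
      abel
  -- `m ≤ G`
  have hmG : m ≤ G := by
    have h4 : m ≤ max (f x) G := by
      refine ciSup_le fun k => ?_
      rcases k with _ | k
      · simp
      · have := hmax k
        simpa using this
    rcases le_max_iff.1 h4 with h5 | h5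
    · exact absurd h5 (not_le.2 hE0)
    · exact h5
  have hback : m ≤ env w f (x - w) := by
    by_contra hcon
    push Not at hcon
    have h6 : m ≤ max (f x) (env w f (x - w)) := by
      refine ciSup_le fun k => ?_
      rcases k with _ | k
      · simp
      · refine le_max_of_le_right ?_
        have := le_env (w := w) h1 (x - w) k
        refine le_trans (le_of_eq ?_) this
        congr 1
        push_cast
        rw [add_smul, one_smul]; abel
    rcases le_max_iff.1 h6 with h5 | h5
    · exact absurd h5 (not_le.2 hE0)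
    · exact absurd h5 (not_le.2 hcon)
  have hfwd : m ≤ env w f (x + w) := by
    refine ciSup_le fun k => ?_
    have := le_env (w := w) h1 (x + w) (k + 1)
    refine le_trans (le_of_eq ?_) this
    congr 1
    push_cast
    rw [add_smul, one_smul]; abel
  rw [hsplit]
  have hA : parMass w (ω x) * m ≤
      ∑ e : Step d with Par w (stepVec e), (ω x).1 e * env w f (x + stepVec e) := by
    unfold parMass
    rw [Finset.sum_mul]
    refine Finset.sum_le_sum fun e he => mul_le_mul_of_nonneg_left ?_ (row_nonneg _ _)
    have he' : Par w (stepVec e) := by simpa using he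
    rcases par_step he' with h | h
    · rw [h]; exact hfwd
    · rw [h, ← sub_eq_add_neg]; exact hback
  have hB : (1 - parMass w (ω x)) * G ≤
      ∑ e : Step d with ¬ Par w (stepVec e), (ω x).1 e * env w f (x + stepVec e) := by
    rw [← hsum]
    refine Finset.sum_le_sum fun e he => mul_le_mul_of_nonneg_left ?_ (row_nonneg _ _)
    exact Finset.inf'_le _ (by simp [C, Par.zero])
  have hpar := hω.par_lt x
  nlinarith

end Vale.Agent.P147
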