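import Mathlib
import Vale.Agent.Lib.P147.Defs
import Vale.Agent.Lib.P147.Envelope

open MeasureTheory ProbabilityTheory Filter
open scoped ENNReal

namespace Vale.Agent.P147

variable {d : ℕ}

lemma add_smul_mem {w : Fin d → ℤ} {T : Set (Fin d → ℤ)} (hT : ∀ x ∈ T, x + w ∈ T)
    {x : Fin d → ℤ} (k : ℕ) (hx : x ∈ T) : x + (k : ℤ) • w ∈ T := by
  induction k with
  | zero => simpa using hx
  | succ k ih =>
    have := hT _ ih
    convert this using 1
    push_cast
    rw [add_smul, one_smul]; abel

lemma stay_mono {w : Fin d → ℤ} (hw : w ≠ 0) {q : Step d → ℝ} {ω : Env d} (hω : GoodEnv w q ω)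
    {T : Set (Fin d → ℤ)} (hT : ∀ x ∈ T, x + w ∈ T) (x : Fin d → ℤ) :
    stay ω T x ≤ stay ω T (x + w) := by
  have h1 := stay_le_one ω T
  have key : ∀ y, env w (stay ω T) y ≤ stay ω T y := by
    refine le_stay ω T (env_le_one h1) ?_ (env_sub hw hω h1 (stay_le_avg ω T))
    intro y hy
    refine ciSup_le fun k => ?_
    rw [stay_of_notMem]
    intro hmem
    apply hy
    have := add_smul_mem hT k hmem
    rwa [sub_add_cancel] at this
  have h2 := le_env (w := w) h1 (x + w) 1
  have h3 : x + w - ((1 : ℕ) : ℤ) • w = x := by simp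
  rw [h3] at h2
  exact h2.trans (key _)

lemma stay_mono_nat {w : Fin d → ℤ} (hw : w ≠ 0) {q : Step d → ℝ} {ω : Env d}
    (hω : GoodEnv w q ω) {T : Set (Fin d → ℤ)} (hT : ∀ x ∈ T, x + w ∈ T) (x : Fin d → ℤ) (k : ℕ) :
    stay ω T x ≤ stay ω T (x + (k : ℤ) • w) := by
  induction k with
  | zero => simp
  | succ k ih =>
    refine ih.trans ((stay_mono hw hω hT _).trans (le_of_eq ?_))
    congr 1
    push_cast
    rw [add_smul, one_smul]; abel

lemma stay_le_evt (ω : Env d) (T : Set (Fin d → ℤ)) (x : Fin d → ℤ) : stay ω T x ≤ evt ω T x := by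
  unfold stay evt
  refine measureReal_mono ?_
  intro X hX
  exact ⟨0, fun k _ => hX k⟩

lemma evt_mono {w : Fin d → ℤ} (hw : w ≠ 0) {q q' : Step d → ℝ} {ω : Env d}
    (hω : GoodEnv w q ω) (hω' : GoodEnv (-w) q' ω)
    {T : Set (Fin d → ℤ)} (hT : ∀ x ∈ T, x + w ∈ T) (x : Fin d → ℤ) :
    evt ω T x ≤ evt ω T (x + w) := by
  set f : (Fin d → ℤ) → ℝ := fun y => 1 - evt ω T y with hf
  have h1 : ∀ y, f y ≤ 1 := fun y => by simp only [hf]; linarith [evt_nonneg ω T y]
  have hsub : ∀ y, f y ≤ avg ω f y := by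
    intro y
    simp only [hf]
    rw [avg_one_sub, ← evt_eq_avg]
  have key : ∀ y, evt ω T y ≤ 1 - env (-w) f y := by
    refine evt_le ω T ?_ ?_
    · intro y
      have : env (-w) f y ≤ 1 - stay ω T y := by
        refine ciSup_le fun k => ?_
        simp only [hf]
        have h2 := stay_mono_nat hw hω hT y k
        have h3 := stay_le_evt ω T (y + (k : ℤ) • w)
        rw [smul_neg, sub_neg_eq_add]
        linarith
      linarith
    · intro y
      rw [avg_one_sub]
      linarith [env_sub (neg_ne_zero.2 hw) hω' h1 hsub y]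
  have h2 := le_env (w := -w) h1 x 1
  have h3 : x - ((1 : ℕ) : ℤ) • (-w) = x + w := by simp
  rw [h3] at h2
  have h4 := key x
  simp only [hf] at h2 h4
  linarith

lemma escape_eq (ℓ : Fin d → ℝ) : (escape ℓ : Set (ℕ → Fin d → ℤ)) =
    ⋂ M : ℕ, {X | ∃ n, ∀ k ≥ n, X k ∈ {y : Fin d → ℤ | (M : ℝ) < ∑ i, (y i : ℝ) * ℓ i}} := by
  ext X
  simp only [escape, Set.mem_setOf_eq, Set.mem_iInter]
  constructor
  · intro h M
    have := (tendsto_atTop.1 h ((M : ℝ) + 1))
    rw [eventually_atTop] at this
    obtain ⟨n, hn⟩ := this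
    exact ⟨n, fun k hk => by linarith [hn k hk]⟩
  · intro h
    rw [tendsto_atTop]
    intro b
    obtain ⟨M, hM⟩ := exists_nat_gt b
    obtain ⟨n, hn⟩ := h M
    rw [eventually_atTop]
    exact ⟨n, fun k hk => by linarith [hn k hk]⟩

lemma measurableSet_evtSet (T : Set (Fin d → ℤ)) :
    MeasurableSet {X : ℕ → Fin d → ℤ | ∃ n, ∀ k ≥ n, X k ∈ T} := by
  have : {X : ℕ → Fin d → ℤ | ∃ n, ∀ k ≥ n, X k ∈ T} = ⋃ n, {X | ∀ k ≥ n, X k ∈ T} := by
    ext X; simp
  rw [this]
  exact MeasurableSet.iUnion fun n => measurableSet_stayFrom T n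

lemma measurableSet_escape (ℓ : Fin d → ℝ) : MeasurableSet (escape ℓ : Set (ℕ → Fin d → ℤ)) := by
  rw [escape_eq]
  exact MeasurableSet.iInter fun M => measurableSet_evtSet _

/-- Escape probabilities are monotone along `w` if `w · ℓ ≥ 0`. -/
lemma escape_mono {w : Fin d → ℤ} (hw : w ≠ 0) {q q' : Step d → ℝ} {ω : Env d}
    (hω : GoodEnv w q ω) (hω' : GoodEnv (-w) q' ω) {ℓ : Fin d → ℝ}
    (hℓ : 0 ≤ ∑ i, (w i : ℝ) * ℓ i) (x : Fin d → ℤ) :
    quenched ω x (escape ℓ) ≤ quenched ω (x + w) (escape ℓ) := by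
  have hlim : ∀ y : Fin d → ℤ, Tendsto (fun M : ℕ =>
      evt ω {y : Fin d → ℤ | (M : ℝ) < ∑ i, (y i : ℝ) * ℓ i} y) atTop
      (nhds ((quenched ω y).real (escape ℓ))) := by
    intro y
    rw [escape_eq]
    unfold evt Measure.real
    refine (ENNReal.tendsto_toReal (measure_ne_top _ _)).comp ?_
    refine tendsto_measure_iInter_atTop (fun M => (measurableSet_evtSet _).nullMeasurableSet)
      ?_ ⟨0, measure_ne_top _ _⟩
    intro M N hMN X hX
    obtain ⟨n, hn⟩ := hX
    refine ⟨n, fun k hk => ?_⟩
    have h2 : (M : ℝ) ≤ N := by exact_mod_cast hMN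
    exact lt_of_le_of_lt h2 (hn k hk)
  have hreal : (quenched ω x).real (escape ℓ) ≤ (quenched ω (x + w)).real (escape ℓ) := by
    refine le_of_tendsto_of_tendsto' (hlim x) (hlim (x + w)) fun M => ?_
    refine evt_mono hw hω hω' ?_ x
    intro y hy
    have hy' : (M : ℝ) < ∑ i, (y i : ℝ) * ℓ i := hy
    show (M : ℝ) < ∑ i, ((y + w) i : ℝ) * ℓ i
    have : ∑ i, ((y + w) i : ℝ) * ℓ i = ∑ i, (y i : ℝ) * ℓ i + ∑ i, (w i : ℝ) * ℓ i := by
      rw [← Finset.sum_add_distrib]
      refine Finset.sum_congr rfl fun i _ => ?_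
      simp only [Pi.add_apply]
      push_cast
      ring
    rw [this]
    linarith
  exact (ENNReal.toReal_le_toReal (measure_ne_top _ _) (measure_ne_top _ _)).1 hreal

/-- Translation covariance of the quenched laws. -/
lemma quenched_shift (ω : Env d) (v x : Fin d → ℤ) :
    quenched (fun y => ω (y + v)) x = (quenched ω (x + v)).map (fun X n => X n - v) := by
  have hmeas : Measurable (fun (X : ℕ → Fin d → ℤ) n => X n - v) := by fun_prop
  have : IsProbabilityMeasure ((quenched ω (x + v)).map (fun X n => X n - v)) :=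
    Measure.isProbabilityMeasure_map hmeas.aemeasurable
  refine path_ext fun n p => ?_
  rw [Measure.map_apply hmeas (measurableSet_cyl n p)]
  have h1 : (fun (X : ℕ → Fin d → ℤ) n => X n - v) ⁻¹' {X | ∀ i ≤ n, X i = p i} =
      {X | ∀ i ≤ n, X i = (fun i => p i + v) i} := by
    ext X
    simp only [Set.mem_preimage, Set.mem_setOf_eq, sub_eq_iff_eq_add]
  rw [h1, quenched_eq_chain, quenched_eq_chain, chain_cyl, chain_cyl]
  congr 1
  · rw [Measure.dirac_apply, Measure.dirac_apply]
    by_cases h : x = p 0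
    · simp [h]
    · simp [h]
  · refine Finset.prod_congr rfl fun i _ => ?_
    rw [stepKernel_apply, stepKernel_apply]
    simp only [Measure.coe_finsetSum, Finset.sum_apply, Measure.smul_apply, smul_eq_mul]
    refine Finset.sum_congr rfl fun e _ => ?_
    congr 1
    rw [Measure.dirac_apply, Measure.dirac_apply]
    by_cases h : p i + stepVec e = p (i + 1)
    · have h' : p i + v + stepVec e = p (i + 1) + v := by rw [← h]; abel
      simp [h, h']
    · have h' : ¬ (p i + v + stepVec e = p (i + 1) + v) := by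
        intro h''
        apply h
        have : p i + stepVec e + v = p (i + 1) + v := by rw [← h'']; abel
        exact add_right_cancel this
      simp [h, h']

lemma quenched_shift_escape (ω : Env d) (v x : Fin d → ℤ) (ℓ : Fin d → ℝ) :
    quenched (fun y => ω (y + v)) x (escape ℓ) = quenched ω (x + v) (escape ℓ) := by
  have hmeas : Measurable (fun (X : ℕ → Fin d → ℤ) n => X n - v) := by fun_prop
  rw [quenched_shift, Measure.map_apply hmeas (measurableSet_escape ℓ)]
  congr 1
  ext X
  simp only [escape, Set.mem_preimage, Set.mem_setOf_eq]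
  have : (fun n => ∑ i, (((X n - v) i : ℤ) : ℝ) * ℓ i) =
      fun n => (∑ i, (X n i : ℝ) * ℓ i) + (-∑ i, (v i : ℝ) * ℓ i) := by
    funext n
    rw [← Finset.sum_neg_distrib, ← Finset.sum_add_distrib]
    refine Finset.sum_congr rfl fun i _ => ?_
    simp only [Pi.sub_apply]
    push_cast
    ring
  rw [this]
  constructor
  · intro h
    have := tendsto_atTop_add_const_right atTop (∑ i, (v i : ℝ) * ℓ i) h
    simpa using this
  · intro h
    exact tendsto_atTop_add_const_right atTop _ h

lemma sh_mem_escape (ℓ : Fin d → ℝ) (X : ℕ → Fin d → ℤ) : sh X ∈ escape ℓ ↔ X ∈ escape ℓ := by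
  simp only [escape, Set.mem_setOf_eq, sh]
  exact tendsto_add_atTop_iff_nat (f := fun n => ∑ i, (X n i : ℝ) * ℓ i) 1

/-- If the escape probability does not depend on the starting point then it is `0` or `1`. -/
lemma zero_one_of_const (ω : Env d) (ℓ : Fin d → ℝ) {c : ℝ≥0∞}
    (hc : ∀ x, quenched ω x (escape ℓ) = c) : c = 0 ∨ c = 1 := by
  set A : Set (ℕ → Fin d → ℤ) := escape ℓ with hA
  have hAm : MeasurableSet A := measurableSet_escape ℓ
  have hc1 : c ≤ 1 := by rw [← hc 0]; exact prob_le_one
  have hctop : c ≠ ∞ := (hc1.trans_lt ENNReal.one_lt_top).ne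
  have key : ∀ (n : ℕ) (p : ℕ → Fin d → ℤ) (x : Fin d → ℤ),
      quenched ω x (A ∩ {X | ∀ i ≤ n, X i = p i}) = c * quenched ω x {X | ∀ i ≤ n, X i = p i} := by
    intro n
    induction n with
    | zero =>
      intro p x
      by_cases hx : p 0 = x
      · have h1 : quenched ω x (A ∩ {X | ∀ i ≤ 0, X i = p i}) = quenched ω x A := by
          refine measure_congr ?_
          filter_upwards [quenched_start ω x] with X hX
          refine propext ⟨fun h => h.1, fun h => ⟨h, fun i hi => ?_⟩⟩
          obtain rfl : i = 0 := by omega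
          rw [hX, hx]
        have h2 : quenched ω x {X | ∀ i ≤ 0, X i = p i} = 1 := by
          rw [← measure_univ (μ := quenched ω x)]
          refine measure_congr ?_
          filter_upwards [quenched_start ω x] with X hX
          refine propext ⟨fun _ => trivial, fun _ i hi => ?_⟩
          obtain rfl : i = 0 := by omega
          rw [hX, hx]
        rw [h1, h2, hc, mul_one]
      · have h2 : quenched ω x {X | ∀ i ≤ 0, X i = p i} = 0 := by
          rw [← nonpos_iff_eq_zero]
          calc quenched ω x {X | ∀ i ≤ 0, X i = p i} ≤ quenched ω x {X | ¬ X 0 = x} := by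
                refine measure_mono fun X hX hX0 => hx ?_
                rw [← hX 0 le_rfl, hX0]
            _ = 0 := ae_iff.1 (quenched_start ω x)
        rw [h2, mul_zero]
        exact measure_mono_null Set.inter_subset_right h2
    | succ n ih =>
      intro p x
      have hm1 : MeasurableSet (A ∩ {X : ℕ → Fin d → ℤ | ∀ i ≤ n, X i = (sh p) i}) :=
        hAm.inter (measurableSet_cyl n _)
      by_cases hx : p 0 = x
      · have h1 : quenched ω x (A ∩ {X | ∀ i ≤ n + 1, X i = p i}) =
            quenched ω x {X | sh X ∈ A ∩ {X : ℕ → Fin d → ℤ | ∀ i ≤ n, X i = (sh p) i}} := by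
          refine measure_congr ?_
          filter_upwards [quenched_start ω x] with X hX
          refine propext ⟨fun h => ⟨(sh_mem_escape ℓ X).2 h.1, fun i hi => h.2 (i + 1) (by omega)⟩,
            fun h => ⟨(sh_mem_escape ℓ X).1 h.1, fun i hi => ?_⟩⟩
          rcases i with _ | i
          · rw [hX, hx]
          · exact h.2 i (by omega)
        have h2 : quenched ω x {X | ∀ i ≤ n + 1, X i = p i} =
            quenched ω x {X | sh X ∈ {X : ℕ → Fin d → ℤ | ∀ i ≤ n, X i = (sh p) i}} := by
          refine measure_congr ?_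
          filter_upwards [quenched_start ω x] with X hX
          refine propext ⟨fun h i hi => h (i + 1) (by omega), fun h i hi => ?_⟩
          rcases i with _ | i
          · rw [hX, hx]
          · exact h i (by omega)
        rw [h1, h2, quenched_eq_chain, chain_sh_apply _ _ hm1,
          chain_sh_apply _ _ (measurableSet_cyl n _), ← lintegral_const_mul' _ _ hctop]
        refine lintegral_congr fun y => ?_
        exact ih (sh p) y
      · have h2 : quenched ω x {X | ∀ i ≤ n + 1, X i = p i} = 0 := by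
          rw [← nonpos_iff_eq_zero]
          calc quenched ω x {X | ∀ i ≤ n + 1, X i = p i} ≤ quenched ω x {X | ¬ X 0 = x} := by
                refine measure_mono fun X hX hX0 => hx ?_
                rw [← hX 0 (by omega), hX0]
            _ = 0 := ae_iff.1 (quenched_start ω x)
        rw [h2, mul_zero]
        exact measure_mono_null Set.inter_subset_right h2
  have hmeas : (quenched ω 0).restrict A = c • quenched ω 0 := by
    have : IsFiniteMeasure (c • quenched ω (0 : Fin d → ℤ)) :=
      ⟨by simpa using hctop.lt_top⟩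
    refine path_ext fun n p => ?_
    rw [Measure.restrict_apply (measurableSet_cyl n p), Set.inter_comm, key n p 0]
    rfl
  have h3 : c = c * c := by
    have := congrArg (fun ν : Measure (ℕ → Fin d → ℤ) => ν A) hmeas
    beta_reduce at this
    rw [Measure.restrict_apply_self, Measure.smul_apply, hc, smul_eq_mul] at this
    exact this
  by_cases h0 : c = 0
  · exact Or.inl h0
  · right
    have h4 : c * 1 = c * c := by rw [mul_one]; exact h3
    exact ((ENNReal.mul_right_inj h0 hctop).1 h4).symm

end Vale.Agent.P147
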