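import Mathlib

open MeasureTheory ProbabilityTheory Filter
open scoped ENNReal

namespace Vale.Agent.P147

variable {d : ℕ} {R : Type*} [MeasurableSpace R]

/-- Translation of a configuration on `ℤ^d`. -/
def tr (v : Fin d → ℤ) (ω : (Fin d → ℤ) → R) : (Fin d → ℤ) → R := fun y => ω (y + v)

@[fun_prop]
lemma measurable_tr (v : Fin d → ℤ) : Measurable (tr (R := R) v) :=
  measurable_pi_lambda _ fun _ => measurable_pi_apply _

lemma measurePreserving_tr (μ : Measure R) [IsProbabilityMeasure μ] (v : Fin d → ℤ) :
    MeasurePreserving (tr (R := R) v) (Measure.infinitePi fun _ : Fin d → ℤ => μ)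
      (Measure.infinitePi fun _ : Fin d → ℤ => μ) := by
  refine ⟨measurable_tr v, ?_⟩
  have := Measure.map_infinitePi_infinitePi_of_inj (P := fun _ : Fin d → ℤ => μ)
    (f := fun y : Fin d → ℤ => y + v) (add_left_injective v)
  exact this

omit [MeasurableSpace R] in
lemma tr_add (u v : Fin d → ℤ) (ω : (Fin d → ℤ) → R) : tr u (tr v ω) = tr (u + v) ω := by
  funext y
  simp only [tr]
  congr 1
  abel

lemma eventually_disjoint_shift {w : Fin d → ℤ} (hw : w ≠ 0) (I J : Finset (Fin d → ℤ)) :
    ∀ᶠ n : ℕ in atTop, Disjoint (I.image fun y => y + (n : ℤ) • w) J := by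
  classical
  obtain ⟨i, hi⟩ : ∃ i, w i ≠ 0 := by
    by_contra h
    push Not at h
    exact hw (funext h)
  -- bound on coordinates
  obtain ⟨B, hB⟩ : ∃ B : ℕ, ∀ y ∈ I ∪ J, |y i| ≤ B := by
    refine ⟨(I ∪ J).sup fun y => (y i).natAbs, fun y hy => ?_⟩
    have : (y i).natAbs ≤ (I ∪ J).sup fun y => (y i).natAbs :=
      Finset.le_sup (f := fun y : Fin d → ℤ => (y i).natAbs) hy
    rw [Int.abs_eq_natAbs]
    exact_mod_cast this
  filter_upwards [eventually_gt_atTop (2 * B)] with n hn
  rw [Finset.disjoint_left]
  intro z hz hzJ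
  obtain ⟨y, hy, rfl⟩ := Finset.mem_image.1 hz
  have h1 := hB y (Finset.mem_union_left _ hy)
  have h2 := hB _ (Finset.mem_union_right _ hzJ)
  simp only [Pi.add_apply, Pi.smul_apply, smul_eq_mul] at h2
  have h3 : (1 : ℤ) ≤ |w i| := Int.one_le_abs hi
  have h4 : |(n : ℤ) * w i| = n * |w i| := by rw [abs_mul]; simp
  have h5 : |(n : ℤ) * w i| ≤ |y i + n * w i| + |y i| := by
    have := abs_sub (y i + n * w i) (y i)
    simpa using this
  have h6 : (n : ℤ) ≤ n * |w i| := by nlinarith
  have h7 : ((2 * B : ℕ) : ℤ) < n := by exact_mod_cast hn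
  push_cast at h7
  rw [h4] at h5
  linarith

/-- Independence of far away cylinders. -/
lemma cylinder_indep (μ : Measure R) [IsProbabilityMeasure μ] {w : Fin d → ℤ} (hw : w ≠ 0)
    {I J : Finset (Fin d → ℤ)} {S : Set (I → R)} {T : Set (J → R)}
    (hS : MeasurableSet S) (hT : MeasurableSet T) :
    ∀ᶠ n : ℕ in atTop,
      (Measure.infinitePi fun _ : Fin d → ℤ => μ)
        (tr ((n : ℤ) • w) ⁻¹' (cylinder I S) ∩ cylinder J T) =
      (Measure.infinitePi fun _ : Fin d → ℤ => μ) (cylinder I S) *
        (Measure.infinitePi fun _ : Fin d → ℤ => μ) (cylinder J T) := by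
  classical
  filter_upwards [eventually_disjoint_shift hw I J] with n hn
  set P := Measure.infinitePi fun _ : Fin d → ℤ => μ with hP
  have hind : iIndepFun (fun (i : Fin d → ℤ) (ω : (Fin d → ℤ) → R) => ω i) P :=
    iIndepFun_infinitePi (X := fun _ r => r) (fun _ => measurable_id)
  have h1 := hind.indepFun_finset (I.image fun y => y + (n : ℤ) • w) J hn
    (fun i => measurable_pi_apply i)
  -- shifted restriction
  let g : ((I.image fun y => y + (n : ℤ) • w) → R) → (I → R) := fun h y =>
    h ⟨y.1 + (n : ℤ) • w, Finset.mem_image_of_mem _ y.2⟩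
  have hg : Measurable g := measurable_pi_lambda _ fun y => measurable_pi_apply _
  have h2 : tr ((n : ℤ) • w) ⁻¹' (cylinder I S) =
      (fun (ω : (Fin d → ℤ) → R) (i : (I.image fun y => y + (n : ℤ) • w)) => ω i) ⁻¹' (g ⁻¹' S) := by
    ext ω
    simp only [Set.mem_preimage, mem_cylinder]
    rfl
  have h3 : (cylinder J T : Set ((Fin d → ℤ) → R)) =
      (fun (ω : (Fin d → ℤ) → R) (i : J) => ω i) ⁻¹' T := rfl
  have h4 := h1.measure_inter_preimage_eq_mul (g ⁻¹' S) T (hg hS) hT
  have h5 : P (tr ((n : ℤ) • w) ⁻¹' (cylinder I S)) = P (cylinder I S) :=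
    (measurePreserving_tr μ _).measure_preimage (hS.cylinder I).nullMeasurableSet
  rw [← h5, h2, h3]
  exact h4

/-- Mixing of translations along a nonzero vector, against cylinders. -/
lemma tendsto_mixing (μ : Measure R) [IsProbabilityMeasure μ] {w : Fin d → ℤ} (hw : w ≠ 0)
    {t : Set ((Fin d → ℤ) → R)} (ht : t ∈ measurableCylinders fun _ : Fin d → ℤ => R)
    {s : Set ((Fin d → ℤ) → R)} (hs : MeasurableSet s) :
    Tendsto (fun n : ℕ => (Measure.infinitePi fun _ : Fin d → ℤ => μ).real
      (tr ((n : ℤ) • w) ⁻¹' s ∩ t)) atTop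
      (nhds ((Measure.infinitePi fun _ : Fin d → ℤ => μ).real s *
        (Measure.infinitePi fun _ : Fin d → ℤ => μ).real t)) := by
  set P := Measure.infinitePi fun _ : Fin d → ℤ => μ with hP
  obtain ⟨J, T, hT, rfl⟩ := (mem_measurableCylinders t).1 ht
  have htm : MeasurableSet (cylinder J T : Set ((Fin d → ℤ) → R)) := hT.cylinder J
  induction s, hs using MeasurableSpace.induction_on_inter
    (generateFrom_measurableCylinders (α := fun _ : Fin d → ℤ => R)).symm
    isPiSystem_measurableCylinders with
  | empty => simp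
  | basic s hs =>
    obtain ⟨I, S, hS, rfl⟩ := (mem_measurableCylinders s).1 hs
    refine tendsto_nhds_of_eventually_eq ?_
    filter_upwards [cylinder_indep μ hw hS hT] with n hn
    simp only [Measure.real]
    rw [hn, ENNReal.toReal_mul]
  | compl s hs ih =>
    have h1 : ∀ n : ℕ, P.real (tr ((n : ℤ) • w) ⁻¹' sᶜ ∩ cylinder J T) =
        P.real (cylinder J T) - P.real (tr ((n : ℤ) • w) ⁻¹' s ∩ cylinder J T) := by
      intro n
      have hm : MeasurableSet (tr ((n : ℤ) • w) ⁻¹' s) := measurable_tr _ hs
      have h2 := measureReal_inter_add_sdiff (μ := P) (s := cylinder J T) hm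
      have h3 : tr ((n : ℤ) • w) ⁻¹' sᶜ ∩ cylinder J T = cylinder J T \ tr ((n : ℤ) • w) ⁻¹' s := by
        ext ω; simp [and_comm]
      rw [h3, Set.inter_comm]
      linarith
    simp only [h1]
    have h4 : P.real sᶜ * P.real (cylinder J T) =
        P.real (cylinder J T) - P.real s * P.real (cylinder J T) := by
      rw [probReal_compl_eq_one_sub hs]; ring
    rw [h4]
    exact tendsto_const_nhds.sub ih
  | iUnion f hd hf ih =>
    have hsum : ∀ n : ℕ, P.real (tr ((n : ℤ) • w) ⁻¹' (⋃ i, f i) ∩ cylinder J T) =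
        ∑' i, P.real (tr ((n : ℤ) • w) ⁻¹' (f i) ∩ cylinder J T) := by
      intro n
      have h1 : tr ((n : ℤ) • w) ⁻¹' (⋃ i, f i) ∩ cylinder J T =
          ⋃ i, (tr ((n : ℤ) • w) ⁻¹' (f i) ∩ cylinder J T) := by
        rw [Set.preimage_iUnion, Set.iUnion_inter]
      simp only [Measure.real]
      rw [h1, measure_iUnion ?_ (fun i => (measurable_tr _ (hf i)).inter htm),
        ENNReal.tsum_toReal_eq (fun i => measure_ne_top _ _)]
      intro i j hij
      exact ((hd hij).preimage _).mono Set.inter_subset_left Set.inter_subset_left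
    have hsum2 : P.real (⋃ i, f i) * P.real (cylinder J T) =
        ∑' i, P.real (f i) * P.real (cylinder J T) := by
      rw [tsum_mul_right]
      congr 1
      simp only [Measure.real]
      rw [measure_iUnion hd hf, ENNReal.tsum_toReal_eq (fun i => measure_ne_top _ _)]
    simp only [hsum]
    rw [hsum2]
    have hbsum : Summable fun i => P.real (f i) := by
      simp only [Measure.real]
      refine ENNReal.summable_toReal ?_
      rw [← measure_iUnion hd hf]
      exact measure_ne_top _ _
    refine tendsto_tsum_of_dominated_convergence hbsum (fun i => ih i) ?_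
    refine Eventually.of_forall fun n i => ?_
    rw [Real.norm_of_nonneg measureReal_nonneg]
    refine (measureReal_mono Set.inter_subset_left).trans (le_of_eq ?_)
    simp only [Measure.real]
    rw [(measurePreserving_tr μ _).measure_preimage (hf i).nullMeasurableSet]

/-- Translations along a nonzero vector are ergodic for iid configurations. -/
theorem ergodic_tr (μ : Measure R) [IsProbabilityMeasure μ] {w : Fin d → ℤ} (hw : w ≠ 0) :
    Ergodic (tr (R := R) w) (Measure.infinitePi fun _ : Fin d → ℤ => μ) := by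
  set P := Measure.infinitePi fun _ : Fin d → ℤ => μ with hP
  refine ⟨measurePreserving_tr μ w, ⟨fun s hs hinv => ?_⟩⟩
  have hinvn : ∀ n : ℕ, tr ((n : ℤ) • w) ⁻¹' s = s := by
    intro n
    induction n with
    | zero =>
      ext ω
      have : tr (((0 : ℕ) : ℤ) • w) ω = ω := by
        funext y; simp [tr]
      rw [Set.mem_preimage, this]
    | succ n ih =>
      have h1 : (tr (R := R) (((n + 1 : ℕ) : ℤ) • w)) = tr ((n : ℤ) • w) ∘ tr w := by
        funext ω
        rw [Function.comp_apply, tr_add]
        congr 1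
        push_cast
        rw [add_smul, one_smul]
      rw [h1, Set.preimage_comp, ih, hinv]
  have hcyl : ∀ t ∈ measurableCylinders (fun _ : Fin d → ℤ => R),
      P.real (s ∩ t) = P.real s * P.real t := by
    intro t ht
    have h1 := tendsto_mixing μ hw ht hs
    simp only [hinvn] at h1
    exact tendsto_nhds_unique tendsto_const_nhds h1
  have hrestr : P.restrict s = (P s) • P := by
    refine ext_of_generate_finite _ (generateFrom_measurableCylinders (α := fun _ : Fin d → ℤ => R)).symm
      isPiSystem_measurableCylinders ?_ ?_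
    · intro t ht
      have htm : MeasurableSet t := MeasurableSet.of_mem_measurableCylinders ht
      rw [Measure.restrict_apply htm, Set.inter_comm, Measure.smul_apply, smul_eq_mul]
      have h1 := hcyl t ht
      simp only [Measure.real] at h1
      rw [← ENNReal.toReal_mul] at h1
      exact (ENNReal.toReal_eq_toReal_iff' (measure_ne_top _ _)
        (ENNReal.mul_ne_top (measure_ne_top _ _) (measure_ne_top _ _))).1 h1
    · simp
  have hsq : P s = P s * P s := by
    have := congrArg (fun ν : Measure ((Fin d → ℤ) → R) => ν s) hrestr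
    beta_reduce at this
    rwa [Measure.restrict_apply_self, Measure.smul_apply, smul_eq_mul] at this
  have h01 : P s = 0 ∨ P s = 1 := by
    by_cases h0 : P s = 0
    · exact Or.inl h0
    · right
      have h4 : P s * 1 = P s * P s := by rw [mul_one]; exact hsq
      exact ((ENNReal.mul_right_inj h0 (measure_ne_top _ _)).1 h4).symm
  rw [eventuallyConst_set']
  rcases h01 with h | h
  · left
    exact ae_eq_empty.2 h
  · right
    rw [ae_eq_univ]
    rwa [prob_compl_eq_zero_iff hs]

end Vale.Agent.P147
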