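import Mathlib
import Vale.Agent.Lib.P147.Defs
import Vale.Agent.Lib.P147.Mono
import Vale.Agent.Lib.P147.ShiftErgodic

open MeasureTheory ProbabilityTheory Filter
open scoped ENNReal

namespace Vale.Agent.P147

variable {d : ℕ}

lemma measurable_row_apply (y : Fin d → ℤ) (e : Step d) :
    Measurable fun ω : Env d => (ω y).1 e :=
  (measurable_pi_apply e).comp (measurable_subtype_coe.comp (measurable_pi_apply y))

lemma measurable_cyl_prob (x : Fin d → ℤ) (n : ℕ) (p : ℕ → Fin d → ℤ) :
    Measurable fun ω : Env d => quenched ω x {X | ∀ i ≤ n, X i = p i} := by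
  simp only [quenched_eq_chain, chain_cyl]
  refine Measurable.const_mul ?_ _
  refine Finset.measurable_fun_prod _ fun i _ => ?_
  simp only [stepKernel_apply, Measure.coe_finsetSum, Finset.sum_apply, Measure.smul_apply,
    smul_eq_mul]
  refine Finset.measurable_fun_sum _ fun e _ => ?_
  exact (measurable_row_apply _ _).ennreal_ofReal.mul_const _

lemma measurable_quenched (x : Fin d → ℤ) : Measurable fun ω : Env d => quenched ω x := by
  refine Measurable.measure_of_isPiSystem_of_isProbabilityMeasure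
    (generateFrom_measurableCylinders (α := fun _ : ℕ => Fin d → ℤ)).symm
    isPiSystem_measurableCylinders ?_
  intro s hs
  obtain ⟨I, S, hS, rfl⟩ := (mem_measurableCylinders s).1 hs
  -- rewrite as a countable union of path cylinders
  set n := I.sup id with hn
  have hI : ∀ i ∈ I, i ≤ n := fun i hi => Finset.le_sup (f := id) hi
  let A : Set (Finset.Iic n → Fin d → ℤ) := {h | (fun i : I => h ⟨i.1, Finset.mem_Iic.2 (hI i i.2)⟩) ∈ S}
  have h1 : (cylinder I S : Set (ℕ → Fin d → ℤ)) =
      ⋃ h ∈ A, {X : ℕ → Fin d → ℤ | ∀ i ≤ n, X i = if hi : i ≤ n then h ⟨i, Finset.mem_Iic.2 hi⟩ else 0} := by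
    ext X
    simp only [mem_cylinder, Set.mem_iUnion, exists_prop]
    constructor
    · intro hX
      refine ⟨fun i => X i, hX, fun i hi => by simp [hi]⟩
    · rintro ⟨h, hA, hX⟩
      have : I.restrict (π := fun _ => Fin d → ℤ) X =
          fun i : I => h ⟨i.1, Finset.mem_Iic.2 (hI i i.2)⟩ := by
        funext i
        have := hX i.1 (hI i i.2)
        rw [dif_pos (hI i i.2)] at this
        simpa using this
      rw [this]
      exact hA
  have hcount : A.Countable := Set.to_countable A
  have hdisj : A.PairwiseDisjoint fun h =>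
      {X : ℕ → Fin d → ℤ | ∀ i ≤ n, X i = if hi : i ≤ n then h ⟨i, Finset.mem_Iic.2 hi⟩ else 0} := by
    intro h _ h' _ hne
    rw [Function.onFun, Set.disjoint_left]
    intro X hX hX'
    apply hne
    funext ⟨i, hi⟩
    have hi' : i ≤ n := Finset.mem_Iic.1 hi
    have e1 := hX i hi'
    have e2 := hX' i hi'
    rw [dif_pos hi'] at e1 e2
    rw [← e1, ← e2]
  have h2 : ∀ ω : Env d, quenched ω x (cylinder I S) = ∑' h : A,
      quenched ω x {X : ℕ → Fin d → ℤ | ∀ i ≤ n, X i = if hi : i ≤ n then h.1 ⟨i, Finset.mem_Iic.2 hi⟩ else 0} := by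
    intro ω
    rw [h1, measure_biUnion hcount hdisj]
    intro h _
    exact measurableSet_cyl n (fun i => if hi : i ≤ n then h ⟨i, Finset.mem_Iic.2 hi⟩ else 0)
  simp only [h2]
  have : Countable A := hcount.to_subtype
  refine Measurable.tsum fun h => ?_
  exact measurable_cyl_prob x n (fun i => if hi : i ≤ n then h.1 ⟨i, Finset.mem_Iic.2 hi⟩ else 0)

lemma measurable_quenched_escape (x : Fin d → ℤ) (ℓ : Fin d → ℝ) :
    Measurable fun ω : Env d => quenched ω x (escape ℓ) :=
  (Measure.measurable_coe (measurableSet_escape ℓ)).comp (measurable_quenched x)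

open Classical in
lemma measurable_parMass (w : Fin d → ℤ) : Measurable (parMass w : Row d → ℝ) := by
  unfold parMass
  refine Finset.measurable_fun_sum _ fun e _ => ?_
  exact (measurable_pi_apply e).comp measurable_subtype_coe

lemma parMass_le_one (w : Fin d → ℤ) (p : Row d) : parMass w p ≤ 1 := by
  classical
  have := parMass_add w p
  have h2 : 0 ≤ ∑ e : Step d with ¬ Par w (stepVec e), p.1 e :=
    Finset.sum_nonneg fun _ _ => row_nonneg _ _
  linarith

/-- In dimension at least two there is a unit step outside `ℤ w`. -/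
lemma exists_not_par (hd : 2 ≤ d) (w : Fin d → ℤ) :
    ∃ e : Step d, ¬ Par w (stepVec e) := by
  by_contra hcon
  push Not at hcon
  have h0 : (0 : ℕ) < d := by omega
  have h1 : (1 : ℕ) < d := by omega
  rcases par_step (hcon (⟨0, h0⟩, true)) with ha | ha <;>
  rcases par_step (hcon (⟨1, h1⟩, true)) with hb | hb
  all_goals
    have e1 := congrFun ha ⟨0, h0⟩
    have e2 := congrFun hb ⟨0, h0⟩
    simp [stepVec] at e1 e2
    omega

lemma parMass_lt_one (hd : 2 ≤ d) {w : Fin d → ℤ} {p : Row d}
    (hp : ∀ e, 0 < p.1 e) : parMass w p < 1 := by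
  classical
  obtain ⟨e, he⟩ := exists_not_par hd w
  have := parMass_add w p
  have h2 : 0 < ∑ e : Step d with ¬ Par w (stepVec e), p.1 e :=
    Finset.sum_pos (fun e _ => hp e) ⟨e, by simpa using he⟩
  linarith

lemma prod_tendsto_ae (μ : Measure (Row d)) [IsProbabilityMeasure μ] (hd : 2 ≤ d)
    {w : Fin d → ℤ} (hw : w ≠ 0) (hell : ∀ᵐ p ∂μ, ∀ e, 0 < p.1 e) (x : Fin d → ℤ) :
    ∀ᵐ ω ∂(Measure.infinitePi fun _ : Fin d → ℤ => μ),
      Tendsto (fun n : ℕ => ∏ j ∈ Finset.range n, parMass w (ω (x - (j : ℤ) • w))) atTop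
        (nhds 0) := by
  classical
  set P := Measure.infinitePi fun _ : Fin d → ℤ => μ with hP
  -- the expectation of one factor
  set a : ℝ := ∫ p, parMass w p ∂μ with ha
  have hint : Integrable (parMass w) μ :=
    Integrable.of_bound (measurable_parMass w).aestronglyMeasurable 1
      (Eventually.of_forall fun p => by
        rw [Real.norm_of_nonneg (parMass_nonneg w p)]; exact parMass_le_one w p)
  have ha0 : 0 ≤ a := integral_nonneg fun p => parMass_nonneg w p
  have ha1 : a < 1 := by
    have h1 : 0 < ∫ p, (1 - parMass w p) ∂μ := by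
      rw [integral_pos_iff_support_of_nonneg_ae]
      · have h2 : Function.support (fun p => 1 - parMass w p) =ᵐ[μ] Set.univ := by
          filter_upwards [hell] with p hp
          refine propext ⟨fun _ => trivial, fun _ => ?_⟩
          have := parMass_lt_one hd (w := w) hp
          show 1 - parMass w p ≠ 0
          linarith
        rw [measure_congr h2]
        simp
      · exact Eventually.of_forall fun p => by
          show 0 ≤ 1 - parMass w p
          linarith [parMass_le_one w p]
      · exact (integrable_const 1).sub hint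
    rw [integral_sub (integrable_const 1) hint] at h1
    simp at h1
    linarith
  -- independence
  have hinj : Function.Injective fun j : ℕ => x - (j : ℤ) • w := by
    intro i j hij
    have h1 : (i : ℤ) • w = (j : ℤ) • w := by
      have : x - (i : ℤ) • w = x - (j : ℤ) • w := hij
      exact sub_right_injective this
    obtain ⟨k, hk⟩ : ∃ k, w k ≠ 0 := by
      by_contra h
      push Not at h
      exact hw (funext h)
    have h2 := congrFun h1 k
    simp only [Pi.smul_apply, smul_eq_mul] at h2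
    exact_mod_cast mul_right_cancel₀ hk h2
  have hind : iIndepFun (fun (j : ℕ) (ω : Env d) => parMass w (ω (x - (j : ℤ) • w))) P := by
    have h1 : iIndepFun (fun (i : Fin d → ℤ) (ω : Env d) => parMass w (ω i)) P :=
      iIndepFun_infinitePi (X := fun _ => parMass w) (fun _ => measurable_parMass w)
    exact h1.precomp hinj
  have hEprod : ∀ n : ℕ, ∫ ω, ∏ j ∈ Finset.range n, parMass w (ω (x - (j : ℤ) • w)) ∂P =
      a ^ n := by
    intro n
    have h1 : iIndepFun (fun (j : Finset.range n) (ω : Env d) =>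
        parMass w (ω (x - ((j : ℕ) : ℤ) • w))) P := hind.precomp Subtype.val_injective
    have h2 := h1.integral_fun_prod_eq_prod_integral
      (fun j => ((measurable_parMass w).comp
        (measurable_pi_apply (x - ((j : ℕ) : ℤ) • w))).aestronglyMeasurable)
    have h3 : ∀ ω : Env d, ∏ j : Finset.range n, parMass w (ω (x - ((j : ℕ) : ℤ) • w)) =
        ∏ j ∈ Finset.range n, parMass w (ω (x - (j : ℤ) • w)) := fun ω =>
      Finset.prod_coe_sort (Finset.range n) (fun j => parMass w (ω (x - (j : ℤ) • w)))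
    simp only [h3] at h2
    rw [h2]
    have h4 : ∀ j : Finset.range n, ∫ ω, parMass w (ω (x - ((j : ℕ) : ℤ) • w)) ∂P = a := by
      intro j
      have h5 := (measurePreserving_eval_infinitePi (fun _ : Fin d → ℤ => μ)
        (x - ((j : ℕ) : ℤ) • w))
      rw [ha, ← h5.map_eq]
      rw [integral_map (φ := Function.eval (x - ((j : ℕ) : ℤ) • w))
        (measurable_pi_apply _).aemeasurable (measurable_parMass w).aestronglyMeasurable]
    rw [Finset.prod_congr rfl (fun j _ => h4 j)]
    simp
  -- the products decrease to a limit with zero expectation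
  set F : ℕ → Env d → ℝ := fun n ω =>
    ∏ j ∈ Finset.range n, parMass w (ω (x - (j : ℤ) • w)) with hF
  have hF0 : ∀ n ω, 0 ≤ F n ω := fun n ω => Finset.prod_nonneg fun _ _ => parMass_nonneg _ _
  have hFm : ∀ n, Measurable (F n) := fun n =>
    Finset.measurable_fun_prod _ fun j _ => (measurable_parMass w).comp (measurable_pi_apply _)
  have hanti : ∀ ω, Antitone fun n => F n ω := by
    intro ω
    refine antitone_nat_of_succ_le fun n => ?_
    simp only [hF, Finset.prod_range_succ]
    exact mul_le_of_le_one_right (hF0 n ω) (parMass_le_one _ _)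
  have hF1 : ∀ n ω, F n ω ≤ 1 := fun n ω => by
    have := hanti ω (Nat.zero_le n)
    simpa [hF] using this
  have hsum : ∑' n, ∫⁻ ω, ENNReal.ofReal (F n ω) ∂P ≠ ∞ := by
    have h1 : ∀ n, ∫⁻ ω, ENNReal.ofReal (F n ω) ∂P = ENNReal.ofReal (a ^ n) := by
      intro n
      rw [← ofReal_integral_eq_lintegral_ofReal]
      · rw [hEprod n]
      · exact Integrable.of_bound (hFm n).aestronglyMeasurable 1
          (Eventually.of_forall fun ω => by
            rw [Real.norm_of_nonneg (hF0 n ω)]; exact hF1 n ω)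
      · exact Eventually.of_forall fun ω => hF0 n ω
    simp only [h1]
    rw [← ENNReal.ofReal_tsum_of_nonneg (fun n => pow_nonneg ha0 n)
      (summable_geometric_of_lt_one ha0 ha1)]
    exact ENNReal.ofReal_ne_top
  have hsum2 : ∀ᵐ ω ∂P, ∑' n, ENNReal.ofReal (F n ω) < ∞ := by
    refine ae_lt_top (Measurable.tsum fun n => (hFm n).ennreal_ofReal) ?_
    rw [lintegral_tsum fun n => (hFm n).ennreal_ofReal.aemeasurable]
    exact hsum
  filter_upwards [hsum2] with ω hω
  have h1 := ENNReal.tendsto_atTop_zero_of_tsum_ne_top hω.ne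
  have h2 := (ENNReal.tendsto_toReal ENNReal.zero_ne_top).comp h1
  simp only [ENNReal.toReal_zero] at h2
  refine h2.congr fun n => ?_
  simp only [Function.comp_apply]
  exact ENNReal.toReal_ofReal (hF0 n ω)

lemma ae_all_sites (μ : Measure (Row d)) [IsProbabilityMeasure μ] {p : Row d → Prop}
    (h : ∀ᵐ r ∂μ, p r) :
    ∀ᵐ ω ∂(Measure.infinitePi fun _ : Fin d → ℤ => μ), ∀ x, p (ω x) := by
  rw [ae_all_iff]
  intro x
  have h5 := (measurePreserving_eval_infinitePi (fun _ : Fin d → ℤ => μ) x)
  exact h5.quasiMeasurePreserving.ae h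

lemma goodEnv_ae (μ : Measure (Row d)) [IsProbabilityMeasure μ] (hd : 2 ≤ d)
    {w : Fin d → ℤ} (hw : w ≠ 0) (hell : ∀ᵐ p ∂μ, ∀ e, 0 < p.1 e)
    (hone : RandomOnlyAlong μ w) :
    ∃ q : Step d → ℝ, ∀ᵐ ω ∂(Measure.infinitePi fun _ : Fin d → ℤ => μ), GoodEnv w q ω := by
  obtain ⟨q, hq⟩ := hone
  refine ⟨q, ?_⟩
  have h1 := ae_all_sites μ hq
  have h2 := ae_all_sites μ hell
  have h3 : ∀ᵐ ω ∂(Measure.infinitePi fun _ : Fin d → ℤ => μ), ∀ x : Fin d → ℤ,
      Tendsto (fun n : ℕ => ∏ j ∈ Finset.range n, parMass w (ω (x - (j : ℤ) • w))) atTop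
        (nhds 0) := by
    rw [ae_all_iff]
    exact fun x => prod_tendsto_ae μ hd hw hell x
  filter_upwards [h1, h2, h3] with ω h1 h2 h3
  exact ⟨fun x e he => h1 x e he, fun x => parMass_lt_one hd (h2 x), h3⟩

lemma RandomOnlyAlong.neg {μ : Measure (Row d)} {w : Fin d → ℤ} (h : RandomOnlyAlong μ w) :
    RandomOnlyAlong μ (-w) := by
  have : Par (-w) = Par w := by
    funext v
    exact propext Par.neg_iff
  unfold RandomOnlyAlong
  rw [this]
  exact h

/-- Main theorem, assuming `0 ≤ w · ℓ`. -/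
lemma main_aux (μ : Measure (Row d)) [IsProbabilityMeasure μ] (hd : 2 ≤ d)
    {w : Fin d → ℤ} (hw : w ≠ 0) (hell : ∀ᵐ p ∂μ, ∀ e, 0 < p.1 e)
    (hone : RandomOnlyAlong μ w) (ℓ : Fin d → ℝ) (hℓ : 0 ≤ ∑ i, (w i : ℝ) * ℓ i) :
    annealed μ 0 (escape ℓ) = 0 ∨ annealed μ 0 (escape ℓ) = 1 := by
  set P := Measure.infinitePi fun _ : Fin d → ℤ => μ with hP
  obtain ⟨q, hq⟩ := goodEnv_ae μ hd hw hell hone
  obtain ⟨q', hq'⟩ := goodEnv_ae μ hd (neg_ne_zero.2 hw) hell hone.neg
  set r : Env d → ℝ≥0∞ := fun ω => quenched ω 0 (escape ℓ) with hr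
  have hrm : Measurable r := measurable_quenched_escape 0 ℓ
  have hmp := measurePreserving_tr (R := Row d) μ w
  have hrle : r ≤ᵐ[P] r ∘ tr w := by
    filter_upwards [hq, hq'] with ω h1 h2
    have h3 := escape_mono hw h1 h2 hℓ 0
    have h4 := quenched_shift_escape ω w 0 ℓ
    simp only [hr, Function.comp_apply]
    show quenched ω 0 (escape ℓ) ≤ quenched (fun y => ω (y + w)) 0 (escape ℓ)
    rw [h4]
    exact h3
  have hint : ∫⁻ ω, (r ∘ tr w) ω ∂P = ∫⁻ ω, r ω ∂P := hmp.lintegral_comp hrm
  have hfin : ∫⁻ ω, r ω ∂P ≠ ∞ := by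
    have : ∫⁻ ω, r ω ∂P ≤ ∫⁻ _, 1 ∂P := lintegral_mono fun ω => prob_le_one
    refine (this.trans_lt ?_).ne
    simp
  have hreq : r =ᵐ[P] r ∘ tr w :=
    ae_eq_of_ae_le_of_lintegral_le hrle hfin (hrm.comp (measurable_tr w)).aemeasurable hint.le
  obtain ⟨c, hc⟩ := (ergodic_tr (R := Row d) μ hw).ae_eq_const_of_ae_eq_comp₀
    hrm.nullMeasurable hreq.symm
  have hall : ∀ᵐ ω ∂P, ∀ x, quenched ω x (escape ℓ) = c := by
    rw [ae_all_iff]
    intro x
    have h1 := (measurePreserving_tr (R := Row d) μ x).quasiMeasurePreserving.ae hc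
    filter_upwards [h1] with ω h1
    have h4 := quenched_shift_escape ω x 0 ℓ
    rw [zero_add] at h4
    rw [← h4]
    exact h1
  have hann : annealed μ 0 (escape ℓ) = c := by
    unfold annealed
    rw [lintegral_congr_ae hc]
    simp
  obtain ⟨ω, hω⟩ := hall.exists
  rw [hann]
  exact zero_one_of_const ω ℓ hω

/-- Zero-one law for laws with one-dimensional randomness. -/
theorem zero_one (μ : Measure (Row d)) [IsProbabilityMeasure μ] (hd : 2 ≤ d)
    {w : Fin d → ℤ} (hw : w ≠ 0) (hell : ∀ᵐ p ∂μ, ∀ e, 0 < p.1 e)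
    (hone : RandomOnlyAlong μ w) (ℓ : Fin d → ℝ) :
    annealed μ 0 (escape ℓ) = 0 ∨ annealed μ 0 (escape ℓ) = 1 := by
  rcases le_total 0 (∑ i, (w i : ℝ) * ℓ i) with h | h
  · exact main_aux μ hd hw hell hone ℓ h
  · refine main_aux μ hd (neg_ne_zero.2 hw) hell hone.neg ℓ ?_
    have : ∑ i, ((-w) i : ℝ) * ℓ i = - ∑ i, (w i : ℝ) * ℓ i := by
      rw [← Finset.sum_neg_distrib]
      refine Finset.sum_congr rfl fun i _ => ?_
      simp
    rw [this]
    linarith

end Vale.Agent.P147
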